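import Mathlib

/-!
# P146, lower half: the lower side of the a priori bound (helper595)

`reset`: at one scale (unit letters of `H865/F1.lean`) the rows at the exponent `1 + κ`, the
zero-field growth and the upper side of the a priori bound give
`ψ1 (2 e) ≥ ψ1 0 - L` with `L` independent of the crude constant `B`.

`octaves`: the induction over the octaves: resets + convexity in the exponent give the crude lower
side at all scales.
-/

namespace Vale.Agent.P146.H595.Star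

open Set

/-- The cubic bound of the `P2` row as a function of the response. -/
lemma K_le {C a w d K A : ℝ} (hC : 0 ≤ C) (ha : a ≤ A) (hA : 0 ≤ A) (hw1 : w ≤ 1)
    (hK : K ≤ (1 + C * max a 0) * (max a 0) ^ 3 / 12 + C * w * max a 0 + C * w * √w + d) :
    K ≤ (1 + C * A) * A ^ 3 / 12 + C * A + C * w * √w + d := by
  have hm : max a 0 ≤ A := max_le ha hA
  have hm0 : 0 ≤ max a 0 := le_max_right _ _
  have h1 : (1 + C * max a 0) * (max a 0) ^ 3 ≤ (1 + C * A) * A ^ 3 := by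
    have : C * max a 0 ≤ C * A := mul_le_mul_of_nonneg_left hm hC
    exact mul_le_mul (by linarith) (pow_le_pow_left₀ hm0 hm 3) (by positivity)
      (by nlinarith [mul_nonneg hC hA])
  have h2 : C * w * max a 0 ≤ C * A := by
    have h3 : w * max a 0 ≤ 1 * A := mul_le_mul hw1 hm hm0 (by norm_num)
    calc C * w * max a 0 = C * (w * max a 0) := by ring
      _ ≤ C * (1 * A) := mul_le_mul_of_nonneg_left h3 hC
      _ = C * A := by ring
  linarith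

/-- One grid step: if `ψ2` does not increase from `p` to `p + τ`, the response at `p + τ` is at
most `4 β d / τ`. -/
lemma al_le {β d p τ α : ℝ} {ψ : ℝ → ℝ} (hβ : 0 < β) (hτ : 0 < τ) (hp : 0 ≤ p)
    (hp1 : p + τ ≤ 1)
    (hag : ∀ w' ∈ Icc (0 : ℝ) 1, ψ w' ≤ ψ (p + τ) + α / (4 * β) * (w' - (p + τ)) + d)
    (hdec : ψ (p + τ) ≤ ψ p) : α ≤ 4 * β * d / τ := by
  have h := hag p ⟨hp, by linarith⟩
  have h1 : α / (4 * β) * τ ≤ d := by nlinarith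
  rw [le_div_iff₀ hτ]
  have h2 : α * τ = 4 * β * (α / (4 * β) * τ) := by field_simp
  rw [h2]
  exact mul_le_mul_of_nonneg_left h1 (by positivity)

/-- A finite sequence either increases up to `N` or has a first step which does not increase. -/
lemma first_step (f : ℕ → ℝ) (N : ℕ) :
    f 0 ≤ f N ∨ ∃ j < N, f 0 ≤ f j ∧ f (j + 1) ≤ f j := by
  induction N with
  | zero => exact Or.inl le_rfl
  | succ N ih =>
    rcases ih with h | ⟨j, hj, h1, h2⟩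
    · rcases le_total (f (N + 1)) (f N) with h3 | h3
      · exact Or.inr ⟨N, Nat.lt_succ_self N, h, h3⟩
      · exact Or.inl (h.trans h3)
    · exact Or.inr ⟨j, Nat.lt_succ_of_lt hj, h1, h2⟩

/-- Concavity: a lower bound at `θ` from the values at `0` and `1`. -/
lemma cc_lo {ψ : ℝ → ℝ} {θ B : ℝ} (hcc : ConcaveOn ℝ (Icc (0 : ℝ) 1) ψ) (hcr : ψ 0 - B ≤ ψ 1)
    (hθ : 0 ≤ θ) (hθ1 : θ ≤ 1) : ψ 0 - θ * B ≤ ψ θ := by
  have hcc2 := hcc.2
  have hx := hcc2 (⟨le_rfl, by norm_num⟩ : (0 : ℝ) ∈ Icc (0 : ℝ) 1)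
    (⟨by norm_num, le_rfl⟩ : (1 : ℝ) ∈ Icc (0 : ℝ) 1)
    (by linarith : 0 ≤ 1 - θ) hθ (by ring)
  simp only [smul_eq_mul, mul_zero, mul_one, zero_add] at hx
  have h1 : θ * (ψ 0 - B) ≤ θ * ψ 1 := mul_le_mul_of_nonneg_left hcr hθ
  have h2 : (1 - θ) * ψ 0 + θ * (ψ 0 - B) = ψ 0 - θ * B := by ring
  linarith

/-- Concavity: a small step to the right of `p ≤ 1/2` loses little. -/
lemma cc_step {ψ : ℝ → ℝ} {p τ D q : ℝ} (hcc : ConcaveOn ℝ (Icc (0 : ℝ) 1) ψ) (hp : 0 ≤ p)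
    (hp1 : p ≤ 1 / 2) (hτ : 0 ≤ τ) (hpt : p + τ ≤ 1) (hD : ψ p - ψ 1 ≤ D) (hD0 : 0 ≤ D)
    (hq : 2 * τ ≤ q) : ψ p - q * D ≤ ψ (p + τ) := by
  have hp12 : 1 / 2 ≤ 1 - p := by linarith
  have hpp : 0 < 1 - p := by linarith
  have ht0 : 0 ≤ τ / (1 - p) := div_nonneg hτ hpp.le
  have ht1 : τ / (1 - p) ≤ 1 := by rw [div_le_one hpp]; linarith
  have hcc2 := hcc.2
  have hx := hcc2 (⟨hp, by linarith⟩ : p ∈ Icc (0 : ℝ) 1)
    (⟨by norm_num, le_rfl⟩ : (1 : ℝ) ∈ Icc (0 : ℝ) 1)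
    (by linarith : 0 ≤ 1 - τ / (1 - p)) ht0 (by ring)
  have hxe : (1 - τ / (1 - p)) * p + τ / (1 - p) * 1 = p + τ := by
    have h0 : (1 - p) ≠ 0 := hpp.ne'
    have h1 : τ / (1 - p) * (1 - p) = τ := div_mul_cancel₀ _ h0
    linarith
  simp only [smul_eq_mul] at hx
  rw [hxe] at hx
  have h10 : τ / (1 - p) ≤ q := by
    rw [div_le_iff₀ hpp]
    have hq0 : 0 ≤ q := by linarith
    have : q * (1 / 2) ≤ q * (1 - p) := mul_le_mul_of_nonneg_left hp12 hq0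
    linarith
  have h11 : τ / (1 - p) * (ψ p - ψ 1) ≤ q * D :=
    (mul_le_mul_of_nonneg_left hD ht0).trans (mul_le_mul_of_nonneg_right h10 hD0)
  have h12 : (1 - τ / (1 - p)) * ψ p + τ / (1 - p) * ψ 1 = ψ p - τ / (1 - p) * (ψ p - ψ 1) := by
    ring
  linarith

/-- The response bound at `2 e` from the upper side of the a priori bound. -/
lemma al_up {β e u d α : ℝ} {ψ : ℝ → ℝ} (hβ : 0 < β) (he : 0 < e)
    (hag : ∀ w' ∈ Icc (0 : ℝ) 1, ψ w' ≤ ψ (2 * e) + α / (4 * β) * (w' - 2 * e) + d)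
    (hup : ψ (2 * e) ≤ ψ 0 + u) : α ≤ 2 * β / e * (u + d) := by
  have h0 := hag 0 ⟨le_rfl, by norm_num⟩
  have h6 : α / (4 * β) * (2 * e) ≤ u + d := by linarith
  have h7 : α = 2 * β / e * (α / (4 * β) * (2 * e)) := by field_simp; ring
  rw [h7]
  exact mul_le_mul_of_nonneg_left h6 (by positivity)

/-- The row at `w`, in the form used below. -/
def RowAt (β C κ d : ℝ) (ψ1 ψ2 : ℝ → ℝ) (w : ℝ) : Prop :=
  ∃ α K : ℝ, (∀ w' ∈ Icc (0 : ℝ) 1, ψ2 w' ≤ ψ2 w + α / (4 * β) * (w' - w) + d) ∧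
    ψ2 w - K * κ - d ≤ ψ1 w ∧
    K ≤ (1 + C * max α 0) * (max α 0) ^ 3 / 12 + C * w * max α 0 + C * w * √w + d

/-- The number `κ K(a)`. -/
noncomputable def KK (C d a : ℝ) : ℝ := (1 + C * a) * a ^ 3 / 12 + C * a + d

/-- Case 1: `ψ2` increases up to `2 e`. -/
lemma case1 {β C κ B e θ d u : ℝ} {ψ1 ψ2 : ℝ → ℝ} (hβ : 0 < β) (hC : 0 ≤ C) (hκ : 0 < κ)
    (he : 0 < e) (he1 : 2 * e ≤ 1 / 2) (hθ : 0 < θ) (hθe : θ < 2 * e) (hd : 0 ≤ d) (hu : 0 ≤ u)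
    (hcc : ConcaveOn ℝ (Icc (0 : ℝ) 1) ψ2) (hcr : ψ2 0 - B ≤ ψ2 1) (hup2 : ψ2 (2 * e) ≤ ψ2 0 + u)
    (hgr : ψ1 0 ≤ ψ2 0) (hrow : RowAt β C κ d ψ1 ψ2 (2 * e)) (h : ψ2 θ ≤ ψ2 (2 * e)) :
    ψ1 0 - (θ * B + κ * (KK C d (2 * β / e * (u + d)) + C * (2 * e) * √(2 * e)) + d) ≤
      ψ1 (2 * e) := by
  obtain ⟨α, K, hag, hsg, hK⟩ := hrow
  have hα := al_up hβ he hag hup2
  have hθB := cc_lo hcc hcr hθ.le (by linarith)
  have hK2 := K_le hC hα (by positivity) (by linarith) hK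
  have hK3 : K * κ ≤ κ * (KK C d (2 * β / e * (u + d)) + C * (2 * e) * √(2 * e)) := by
    rw [mul_comm]
    refine mul_le_mul_of_nonneg_left ?_ hκ.le
    unfold KK; linarith
  linarith

/-- Case 2: `ψ2` does not increase on `[p, p + τ]`: contradiction. -/
lemma case2 {β C κ B c e θ d u p τ q : ℝ} {ψ1 ψ2 : ℝ → ℝ} (hβ : 0 < β) (hC : 0 ≤ C) (hκ : 0 < κ)
    (hB : 0 ≤ B) (he : 0 < e) (he1 : 2 * e ≤ 1 / 2) (hθ : 0 < θ) (hd : 0 ≤ d)
    (hu : 0 ≤ u) (hcc : ConcaveOn ℝ (Icc (0 : ℝ) 1) ψ2) (hcr : ψ2 0 - B ≤ ψ2 1)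
    (hup1 : ψ1 (p + τ) ≤ ψ1 0 + u) (hup2 : ψ2 p ≤ ψ2 0 + u)
    (hgr : ψ1 0 + c * κ ≤ ψ2 0)
    (hrow : RowAt β C κ d ψ1 ψ2 (p + τ))
    (hp : θ ≤ p) (hτ : 0 < τ) (hpt : p + τ ≤ 2 * e) (hq : 2 * τ ≤ q)
    (hj1 : ψ2 θ ≤ ψ2 p) (hj2 : ψ2 (p + τ) ≤ ψ2 p)
    (h1 : u + κ * (C * (2 * e) * √(2 * e)) ≤ c * κ / 4)
    (h2 : θ * B ≤ c * κ / 4)
    (h3 : q * (u + B) ≤ c * κ / 8)
    (h4 : κ * KK C d (4 * β * d / τ) + d < c * κ / 8) : False := by
  obtain ⟨α, K, hag, hsg, hK⟩ := hrow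
  have hα : α ≤ 4 * β * d / τ := al_le hβ hτ (by linarith) (by linarith) hag hj2
  have hA0 : 0 ≤ 4 * β * d / τ := by positivity
  have hK2 := K_le hC hα hA0 (by linarith) hK
  have hw : C * (p + τ) * √(p + τ) ≤ C * (2 * e) * √(2 * e) := by
    have h8 : √(p + τ) ≤ √(2 * e) := Real.sqrt_le_sqrt hpt
    have h9 : 0 ≤ C * (2 * e) := by positivity
    exact mul_le_mul (mul_le_mul_of_nonneg_left hpt hC) h8 (Real.sqrt_nonneg _) h9
  have hK3 : K * κ ≤ κ * KK C d (4 * β * d / τ) + κ * (C * (2 * e) * √(2 * e)) := by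
    have h9 : K * κ = κ * K := mul_comm _ _
    rw [h9, ← mul_add]
    refine mul_le_mul_of_nonneg_left ?_ hκ.le
    unfold KK; linarith
  have hθB := cc_lo hcc hcr hθ.le (by linarith)
  have hnear := cc_step hcc (by linarith : 0 ≤ p) (by linarith) hτ.le (by linarith)
    (by linarith : ψ2 p - ψ2 1 ≤ u + B) (by linarith) hq
  have h14 : 0 ≤ κ * (C * (2 * e) * √(2 * e)) := by
    have := Real.sqrt_nonneg (2 * e)
    have h9 : 0 ≤ C * (2 * e) := by positivity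
    exact mul_nonneg hκ.le (mul_nonneg h9 this)
  linarith

/-- **The reset at one scale.**  `u` bounds the upper side of the a priori bound on `[0, 2e]`. -/
theorem reset {β C κ B c e θ d u : ℝ} {ψ1 ψ2 : ℝ → ℝ} {N : ℕ}
    (hβ : 0 < β) (hC : 0 ≤ C) (hκ : 0 < κ) (hB : 0 ≤ B) (he : 0 < e) (he1 : 2 * e ≤ 1 / 2)
    (hθ : 0 < θ) (hθe : θ < 2 * e) (hd : 0 ≤ d) (hu : 0 ≤ u) (hN : 0 < N) (hc : 0 ≤ c)
    (hcc : ConcaveOn ℝ (Icc (0 : ℝ) 1) ψ2) (hcr : ψ2 0 - B ≤ ψ2 1)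
    (hup1 : ∀ w ∈ Icc (0 : ℝ) (2 * e), ψ1 w ≤ ψ1 0 + u)
    (hup2 : ∀ w ∈ Icc (0 : ℝ) (2 * e), ψ2 w ≤ ψ2 0 + u)
    (hgr : ψ1 0 + c * κ ≤ ψ2 0)
    (hrow : ∀ w ∈ Icc θ (2 * e), RowAt β C κ d ψ1 ψ2 w)
    (h1 : u + κ * (C * (2 * e) * √(2 * e)) ≤ c * κ / 4)
    (h2 : θ * B ≤ c * κ / 4)
    (h3 : 2 / N * (u + B) ≤ c * κ / 8)
    (h4 : κ * KK C d (4 * β * d / ((2 * e - θ) / N)) + d < c * κ / 8) :
    ψ1 0 - (θ * B + κ * (KK C d (2 * β / e * (u + d)) + C * (2 * e) * √(2 * e)) + d) ≤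
      ψ1 (2 * e) := by
  have hNr : (0 : ℝ) < N := Nat.cast_pos.2 hN
  obtain ⟨τ, hτdef⟩ : ∃ τ : ℝ, τ = (2 * e - θ) / N := ⟨_, rfl⟩
  have hτ : 0 < τ := by rw [hτdef]; exact div_pos (by linarith) hNr
  have hNτ : (N : ℝ) * τ = 2 * e - θ := by rw [hτdef]; field_simp
  have hcκ : 0 ≤ c * κ := mul_nonneg hc hκ.le
  have hf := first_step (fun j : ℕ => ψ2 (θ + j * τ)) N
  simp only [Nat.cast_zero, zero_mul, add_zero] at hf
  rcases hf with h | ⟨j, hj, hj1, hj2⟩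
  · have hend : θ + (N : ℝ) * τ = 2 * e := by rw [hNτ]; ring
    rw [hend] at h
    exact case1 hβ hC hκ he he1 hθ hθe hd hu hcc hcr (hup2 _ ⟨by linarith, le_rfl⟩) (by linarith)
      (hrow _ ⟨hθe.le, le_rfl⟩) h
  · exfalso
    have hjN : (j : ℝ) + 1 ≤ N := by exact_mod_cast hj
    have hjt : (0 : ℝ) ≤ j * τ := by positivity
    have hpt : (θ + j * τ) + τ ≤ 2 * e := by
      have h6 : ((j : ℝ) + 1) * τ ≤ N * τ := mul_le_mul_of_nonneg_right hjN hτ.le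
      rw [hNτ] at h6
      have h7 : ((j : ℝ) + 1) * τ = j * τ + τ := by ring
      linarith
    have hpj : θ + ((j + 1 : ℕ) : ℝ) * τ = (θ + j * τ) + τ := by push_cast; ring
    simp only [hpj] at hj2
    have hq : 2 * τ ≤ 2 / N := by
      rw [le_div_iff₀ hNr]
      have : 2 * τ * N = 2 * (N * τ) := by ring
      rw [this, hNτ]; linarith
    rw [← hτdef] at h4
    exact case2 hβ hC hκ hB he he1 hθ hd hu hcc hcr (hup1 _ ⟨by linarith, hpt⟩)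
      (hup2 _ ⟨by linarith, by linarith⟩) hgr (hrow _ ⟨by linarith, hpt⟩) (by linarith) hτ hpt hq
      hj1 hj2 h1 h2 h3 h4

/-- **The reset at one scale, continuity version** (helper112's remark): no crude constant `B`,
no grid; the crude lower side enters only through `h0`. -/
theorem reset' {β C κ c e θ d u s s1 : ℝ} {ψ1 ψ2 : ℝ → ℝ} (hβ : 0 < β) (hC : 0 ≤ C) (hκ : 0 < κ)
    (he : 0 < e) (he1 : 2 * e < 1) (hθ : 0 < θ)
    (hcc : ConcaveOn ℝ (Icc (0 : ℝ) 1) ψ2) (h0 : ψ2 0 - s1 ≤ ψ2 θ)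
    (hup1 : ∀ w ∈ Icc θ (2 * e), ψ1 w ≤ ψ1 0 + u) (hgr : ψ1 0 + c * κ ≤ ψ2 0)
    (hrow : ∀ w ∈ Icc θ (2 * e), RowAt β C κ d ψ1 ψ2 w) (hs : s1 + d < s)
    (hcon : s + u + d + κ * (C * (2 * e) * √(2 * e) + d) < c * κ) :
    ∀ w ∈ Icc θ (2 * e), ψ2 0 - s ≤ ψ2 w := by
  intro w hw
  by_contra hlt
  push Not at hlt
  -- continuity
  have hco : ContinuousOn ψ2 (Icc θ w) := by
    have h1 : ConcaveOn ℝ (Ioo (0 : ℝ) 1) ψ2 := hcc.subset Ioo_subset_Icc_self (convex_Ioo 0 1)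
    have h2 : ContinuousOn ψ2 (Ioo (0 : ℝ) 1) := h1.continuousOn isOpen_Ioo
    refine h2.mono fun z hz => ⟨by linarith [hz.1], by linarith [hz.2, hw.2]⟩
  by_cases hsd : ψ2 θ ≤ ψ2 0 - s
  · -- impossible: `ψ2 θ ≥ ψ2 0 - s1 > ψ2 0 - s` unless `d < 0`; use the row at `θ`
    obtain ⟨α, K, hag, -, -⟩ := hrow θ ⟨le_rfl, by linarith [hw.1, hw.2]⟩
    have hd0 := hag θ ⟨hθ.le, by linarith [hw.1, hw.2]⟩
    simp only [sub_self, mul_zero, add_zero] at hd0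
    linarith
  push Not at hsd
  have hmem : ψ2 0 - s ∈ Icc (ψ2 w) (ψ2 θ) := ⟨hlt.le, hsd.le⟩
  obtain ⟨v, hv, hvs⟩ := intermediate_value_Icc' hw.1 hco hmem
  have hv2 : v ∈ Icc θ (2 * e) := ⟨hv.1, hv.2.trans hw.2⟩
  obtain ⟨α, K, hag, hsg, hK⟩ := hrow v hv2
  have hθ1 : θ ∈ Icc (0 : ℝ) 1 := ⟨hθ.le, by linarith [hv2.1, hv2.2]⟩
  have h1 := hag θ hθ1
  rcases le_or_gt α 0 with ha | ha
  · -- `K ≤ C v √v + d`
    have hm : max α 0 = 0 := max_eq_right ha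
    rw [hm] at hK
    have hv0 : 0 ≤ v := by linarith [hv2.1]
    have h8 : √v ≤ √(2 * e) := Real.sqrt_le_sqrt hv2.2
    have h9 : C * v * √v ≤ C * (2 * e) * √(2 * e) :=
      mul_le_mul (mul_le_mul_of_nonneg_left hv2.2 hC) h8 (Real.sqrt_nonneg _) (by positivity)
    have hK' : K ≤ C * (2 * e) * √(2 * e) + d := by
      have : (1 + C * (0 : ℝ)) * 0 ^ 3 / 12 + C * v * 0 + C * v * √v + d = C * v * √v + d := by
        ring
      rw [this] at hK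
      linarith
    have h10 : K * κ ≤ κ * (C * (2 * e) * √(2 * e) + d) := by
      rw [mul_comm]
      exact mul_le_mul_of_nonneg_left hK' hκ.le
    have h11 := hup1 v hv2
    linarith
  · have h12 : α / (4 * β) * (θ - v) ≤ 0 :=
      mul_nonpos_of_nonneg_of_nonpos (by positivity) (by linarith [hv2.1])
    linarith

/-! ### The induction over the octaves -/

/-- The lower side at the exponent `x`, field `w`, constant `l`. -/
def Lo (P : ℝ → ℝ → ℝ) (n β x w l : ℝ) : Prop :=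
  P x 0 + n * w / (2 * β) - l * n * x ^ 5 ≤ P x w

lemma Lo.mono {P : ℝ → ℝ → ℝ} {n β x w l l' : ℝ} (h : Lo P n β x w l) (hn : 0 ≤ n) (hx : 0 ≤ x)
    (hl : l ≤ l') : Lo P n β x w l' := by
  unfold Lo at *
  have : l * (n * x ^ 5) ≤ l' * (n * x ^ 5) := mul_le_mul_of_nonneg_right hl (by positivity)
  linarith

/-- One octave down. -/
lemma oct1 {P : ℝ → ℝ → ℝ} {n β C x w l : ℝ}
    (hconv : 4 * P (2 * x) w - 3 * P (3 * x) w ≤ P x w)
    (hup : P (3 * x) w ≤ P (3 * x) 0 + n * w / (2 * β) + C * n * (3 * x) ^ 5)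
    (hz : P (3 * x) 0 ≤ P x 0 + C * n * x ^ 5) (hm : P x 0 ≤ P (2 * x) 0)
    (h : Lo P n β (2 * x) w l) : Lo P n β x w (128 * l + 732 * C) := by
  unfold Lo at *
  have e1 : l * n * (2 * x) ^ 5 = 32 * (l * n * x ^ 5) := by ring
  have e2 : C * n * (3 * x) ^ 5 = 243 * (C * n * x ^ 5) := by ring
  have e3 : (128 * l + 732 * C) * n * x ^ 5 = 128 * (l * n * x ^ 5) + 732 * (C * n * x ^ 5) := by
    ring
  rw [e1] at h
  rw [e2] at hup
  rw [e3]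
  linarith

/-- `j` octaves down. -/
lemma octj {P : ℝ → ℝ → ℝ} {n β C w l X : ℝ} (hn : 0 ≤ n) (hC : 0 ≤ C) (x1 : ℝ)
    (hx1 : 0 < x1)
    (hconv : ∀ x, x1 ≤ x → 2 * x ≤ X → w ≤ x ^ 3 → 4 * P (2 * x) w - 3 * P (3 * x) w ≤ P x w)
    (hup : ∀ x, x1 ≤ x → 2 * x ≤ X → w ≤ x ^ 3 →
      P (3 * x) w ≤ P (3 * x) 0 + n * w / (2 * β) + C * n * (3 * x) ^ 5)
    (hz : ∀ x, x1 ≤ x → 2 * x ≤ X → P (3 * x) 0 ≤ P x 0 + C * n * x ^ 5)
    (hm : ∀ x, x1 ≤ x → 2 * x ≤ X → P x 0 ≤ P (2 * x) 0) :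
    ∀ (j : ℕ) (x : ℝ), x1 ≤ x → w ≤ x ^ 3 → 2 ^ j * x ≤ X → Lo P n β (2 ^ j * x) w l →
      Lo P n β x w (128 ^ j * (l + 6 * C) - 6 * C) := by
  intro j
  induction j with
  | zero =>
    intro x hx _ _ h
    simp only [pow_zero, one_mul] at h ⊢
    exact h.mono hn (by linarith) (by linarith)
  | succ j ih =>
    intro x hx hw hX h
    have h2 : 2 ^ (j + 1) * x = 2 ^ j * (2 * x) := by ring
    rw [h2] at h hX
    have hx0 : 0 < x := by linarith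
    have hj1 : (1 : ℝ) ≤ 2 ^ j := one_le_pow₀ (by norm_num)
    have h2x : 2 * x ≤ X := by
      have : 1 * (2 * x) ≤ 2 ^ j * (2 * x) := mul_le_mul_of_nonneg_right hj1 (by linarith)
      linarith
    have hw' : w ≤ (2 * x) ^ 3 := by
      have : (2 * x) ^ 3 = 8 * x ^ 3 := by ring
      have : 0 < x ^ 3 := by positivity
      linarith
    have h3 := ih (2 * x) (by linarith) hw' hX h
    have h4 := oct1 (hconv x hx h2x hw) (hup x hx h2x hw) (hz x hx h2x) (hm x hx h2x) h3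
    refine h4.mono hn hx0.le ?_
    have h5 : (128 : ℝ) ^ (j + 1) * (l + 6 * C) = 128 * (128 ^ j * (l + 6 * C)) := by ring
    rw [h5]
    linarith

/-- **The induction over the octaves.**  Resets at every scale (conditional on the crude lower
side at the neighbouring scales), convexity in the exponent, the upper side and the zero-field
energy bounds give the crude lower side at all scales. -/
theorem octaves {P : ℝ → ℝ → ℝ} {n β C L B e x0 x1 : ℝ} {k : ℕ} (hn : 0 ≤ n)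
    (hC : 0 ≤ C) (hL : 0 ≤ L) (hx1 : 0 < x1) (hk : 1 ≤ 2 * e * 8 ^ (k + 2))
    (hconv : ∀ x w, x1 ≤ x → 2 * x ≤ x0 → 0 ≤ w → w ≤ x ^ 3 →
      4 * P (2 * x) w - 3 * P (3 * x) w ≤ P x w)
    (hup : ∀ x w, x1 ≤ x → 2 * x ≤ x0 → 0 ≤ w → w ≤ x ^ 3 →
      P (3 * x) w ≤ P (3 * x) 0 + n * w / (2 * β) + C * n * (3 * x) ^ 5)
    (hz : ∀ x, x1 ≤ x → 2 * x ≤ x0 → P (3 * x) 0 ≤ P x 0 + C * n * x ^ 5)
    (hm : ∀ x, x1 ≤ x → 2 * x ≤ x0 → P x 0 ≤ P (2 * x) 0)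
    (htriv : ∀ x w, x1 ≤ x → x ≤ x0 → 0 ≤ w → w ≤ x ^ 3 → P x 0 ≤ P x w)
    (hres : ∀ u, 2 * x1 ≤ u → u ≤ x0 →
      (∀ v w, u / 2 ≤ v → v ≤ x0 → 0 ≤ w → w ≤ v ^ 3 → Lo P n β v w B) →
      ∀ w, 0 ≤ w → w ≤ 2 * e * u ^ 3 → Lo P n β u w L)
    (hB1 : 128 ^ (k + 2) * (L + 6 * C) ≤ B) (hB2 : (2 ^ (k + 2)) ^ 2 / (2 * β) ≤ B * x0 ^ 2) :
    ∀ x w, x1 ≤ x → x ≤ x0 → 0 ≤ w → w ≤ x ^ 3 → Lo P n β x w B := by
  have main : ∀ m : ℕ, ∀ x, x1 ≤ x → x ≤ x0 → x0 ≤ 2 ^ (k + 2 + m) * x →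
      ∀ w, 0 ≤ w → w ≤ x ^ 3 → Lo P n β x w B := by
    intro m
    induction m with
    | zero =>
      intro x hx hx' hm0 w hw hw3
      have hx0 : 0 < x := by linarith
      have h1 := htriv x w hx hx' hw hw3
      unfold Lo
      have hx0' : 0 ≤ x0 := by linarith
      have h2 : x0 ^ 2 ≤ (2 ^ (k + 2) * x) ^ 2 := pow_le_pow_left₀ hx0' (by simpa using hm0) 2
      have hp : (0 : ℝ) < (2 ^ (k + 2)) ^ 2 := by positivity
      have hB0 : 0 ≤ B := le_trans (by positivity) hB1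
      have h3 : (2 ^ (k + 2)) ^ 2 / (2 * β) ≤ (2 ^ (k + 2)) ^ 2 * (B * x ^ 2) := by
        refine hB2.trans ?_
        calc B * x0 ^ 2 ≤ B * (2 ^ (k + 2) * x) ^ 2 := mul_le_mul_of_nonneg_left h2 hB0
          _ = _ := by ring
      have h4 : 1 / (2 * β) ≤ B * x ^ 2 := by
        have h5 : (2 ^ (k + 2)) ^ 2 * (1 / (2 * β)) ≤ (2 ^ (k + 2)) ^ 2 * (B * x ^ 2) := by
          calc (2 ^ (k + 2)) ^ 2 * (1 / (2 * β)) = (2 ^ (k + 2)) ^ 2 / (2 * β) := by ring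
            _ ≤ _ := h3
        exact le_of_mul_le_mul_left h5 hp
      have h6 : n * w / (2 * β) ≤ B * n * x ^ 5 := by
        calc n * w / (2 * β) = n * w * (1 / (2 * β)) := by ring
          _ ≤ n * w * (B * x ^ 2) := mul_le_mul_of_nonneg_left h4 (mul_nonneg hn hw)
          _ = (n * (B * x ^ 2)) * w := by ring
          _ ≤ (n * (B * x ^ 2)) * x ^ 3 := by
              refine mul_le_mul_of_nonneg_left hw3 ?_
              positivity
          _ = B * n * x ^ 5 := by ring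
      linarith
    | succ m ih =>
      intro x hx hx' hm1 w hw hw3
      have hx0 : 0 < x := by linarith
      rcases le_or_gt x0 (2 ^ (k + 2 + m) * x) with h | h
      · exact ih x hx hx' h w hw hw3
      · have hkm : (2 : ℝ) ^ (k + 2) * x ≤ 2 ^ (k + 2 + m) * x := by
          refine mul_le_mul_of_nonneg_right ?_ hx0.le
          exact pow_le_pow_right₀ (by norm_num) (by omega)
        have hu0 : (2 : ℝ) ^ (k + 2) * x ≤ x0 := by linarith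
        have h4x : (4 : ℝ) ≤ 2 ^ (k + 2) := by
          have : (2 : ℝ) ^ 2 ≤ 2 ^ (k + 2) := pow_le_pow_right₀ (by norm_num) (by omega)
          linarith
        have hu1 : 4 * x ≤ (2 : ℝ) ^ (k + 2) * x := mul_le_mul_of_nonneg_right h4x hx0.le
        have hE : Lo P n β (2 ^ (k + 2) * x) w L := by
          refine hres _ (by linarith) hu0 ?_ w hw ?_
          · intro v w' hv hv' hw' hw3'
            refine ih v (by linarith) hv' ?_ w' hw' hw3'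
            have h5 : 2 * x ≤ v := by linarith
            calc x0 ≤ 2 ^ (k + 2 + (m + 1)) * x := hm1
              _ = 2 ^ (k + 2 + m) * (2 * x) := by ring
              _ ≤ 2 ^ (k + 2 + m) * v := mul_le_mul_of_nonneg_left h5 (by positivity)
          · calc w ≤ 1 * x ^ 3 := by linarith
              _ ≤ (2 * e * 8 ^ (k + 2)) * x ^ 3 :=
                  mul_le_mul_of_nonneg_right hk (by positivity)
              _ = 2 * e * (2 ^ (k + 2) * x) ^ 3 := by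
                  have : (8 : ℝ) ^ (k + 2) = (2 ^ (k + 2)) ^ 3 := by
                    rw [← pow_mul, mul_comm, pow_mul]; norm_num
                  rw [this]; ring
        have h6 := octj (P := P) (n := n) (β := β) (C := C) (w := w) (l := L) (X := x0) hn hC x1
          hx1
          (fun y hy hy' hyw => hconv y w hy hy' hw hyw)
          (fun y hy hy' hyw => hup y w hy hy' hw hyw) hz hm (k + 2) x hx hw3 hu0 hE
        exact h6.mono hn hx0.le (by linarith)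
  intro x w hx hx' hw hw3
  obtain ⟨m, hm'⟩ : ∃ m : ℕ, x0 / x ≤ 2 ^ m := by
    obtain ⟨m, hm⟩ := pow_unbounded_of_one_lt (x0 / x) (by norm_num : (1 : ℝ) < 2)
    exact ⟨m, hm.le⟩
  have hx0 : 0 < x := by linarith
  refine main m x hx hx' ?_ w hw hw3
  rw [div_le_iff₀ hx0] at hm'
  refine hm'.trans (mul_le_mul_of_nonneg_right ?_ hx0.le)
  exact pow_le_pow_right₀ (by norm_num) (by omega)

/-- **STAR, abstract form.**  Lower side of the a priori bound at all scales from a start with a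
non-constant `Bn`, resets, convexity in the exponent, the upper side and the zero-field energy
bounds. -/
theorem star {P : ℝ → ℝ → ℝ} {n β C L B Bn γ e x0 x1 : ℝ} {k : ℕ} (hn : 0 ≤ n)
    (hC : 0 ≤ C) (hL : 0 ≤ L) (hx1 : 0 < x1) (hγ : 0 ≤ γ) (hBn : 0 ≤ Bn)
    (hk : 1 ≤ 2 * e * 8 ^ (k + 2))
    (hconv : ∀ x w, x1 ≤ x → 2 * x ≤ 2 ^ (k + 2) * x0 → 0 ≤ w → w ≤ x ^ 3 →
      4 * P (2 * x) w - 3 * P (3 * x) w ≤ P x w)
    (hup : ∀ x w, x1 ≤ x → 2 * x ≤ 2 ^ (k + 2) * x0 → 0 ≤ w → w ≤ x ^ 3 →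
      P (3 * x) w ≤ P (3 * x) 0 + n * w / (2 * β) + C * n * (3 * x) ^ 5)
    (hz : ∀ x, x1 ≤ x → 2 * x ≤ 2 ^ (k + 2) * x0 → P (3 * x) 0 ≤ P x 0 + C * n * x ^ 5)
    (hm : ∀ x, x1 ≤ x → 2 * x ≤ 2 ^ (k + 2) * x0 → P x 0 ≤ P (2 * x) 0)
    (hst : ∀ v w, x0 / 4 ≤ v → v ≤ 2 ^ (k + 3) * x0 → 0 ≤ w → w ≤ v ^ 3 → Lo P n β v w Bn)
    (hBn' : (Bn + C) ^ 3 ≤ γ * (n * (x0 / 2) ^ 6))
    (hres : ∀ u b, 2 * x1 ≤ u → u ≤ 2 ^ (k + 2) * x0 → 0 ≤ b → (b + C) ^ 3 ≤ γ * (n * u ^ 6) →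
      (∀ v w, u / 2 ≤ v → v ≤ 2 * u → 0 ≤ w → w ≤ v ^ 3 → Lo P n β v w b) →
      ∀ w, 0 ≤ w → w ≤ 2 * e * u ^ 3 → Lo P n β u w L)
    (hB1 : 128 ^ (k + 2) * (L + 6 * C) ≤ B) (hB2 : (B + C) ^ 3 ≤ γ * (n * x1 ^ 6)) :
    ∀ x w, x1 ≤ x → x ≤ x0 → 0 ≤ w → w ≤ x ^ 3 → Lo P n β x w B := by
  have hB0 : 0 ≤ B := le_trans (by positivity) hB1
  -- from a reset at `u = 2 ^ (k + 2) x` down to `x`
  have down : ∀ x w, x1 ≤ x → 2 ^ (k + 2) * x ≤ 2 ^ (k + 2) * x0 → 0 ≤ w → w ≤ x ^ 3 →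
      Lo P n β (2 ^ (k + 2) * x) w L → Lo P n β x w B := by
    intro x w hx hxx hw hw3 hE
    have h6 := octj (P := P) (n := n) (β := β) (C := C) (w := w) (l := L)
      (X := 2 ^ (k + 2) * x0) hn hC x1 hx1
      (fun y hy hy' hyw => hconv y w hy hy' hw hyw)
      (fun y hy hy' hyw => hup y w hy hy' hw hyw) hz hm (k + 2) x hx hw3 hxx hE
    exact h6.mono hn (by linarith) (by linarith)
  have hwu : ∀ x w, 0 < x → w ≤ x ^ 3 → w ≤ 2 * e * (2 ^ (k + 2) * x) ^ 3 := by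
    intro x w hx hw3
    calc w ≤ 1 * x ^ 3 := by linarith
      _ ≤ (2 * e * 8 ^ (k + 2)) * x ^ 3 := mul_le_mul_of_nonneg_right hk (by positivity)
      _ = 2 * e * (2 ^ (k + 2) * x) ^ 3 := by
          have : (8 : ℝ) ^ (k + 2) = (2 ^ (k + 2)) ^ 3 := by
            rw [← pow_mul, mul_comm, pow_mul]; norm_num
          rw [this]; ring
  have h4x : (4 : ℝ) ≤ 2 ^ (k + 2) := by
    have : (2 : ℝ) ^ 2 ≤ 2 ^ (k + 2) := pow_le_pow_right₀ (by norm_num) (by omega)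
    linarith
  have main : ∀ m : ℕ, ∀ x, x1 ≤ x → x ≤ x0 → x0 ≤ 2 ^ (k + 3 + m) * x →
      ∀ w, 0 ≤ w → w ≤ x ^ 3 → Lo P n β x w B := by
    intro m
    induction m with
    | zero =>
      intro x hx hx' hm0 w hw hw3
      have hx0 : 0 < x := by linarith
      have hxx : (2 : ℝ) ^ (k + 2) * x ≤ 2 ^ (k + 2) * x0 :=
        mul_le_mul_of_nonneg_left hx' (by positivity)
      have hu1 : 4 * x ≤ (2 : ℝ) ^ (k + 2) * x := mul_le_mul_of_nonneg_right h4x hx0.le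
      have hux : x0 / 2 ≤ 2 ^ (k + 2) * x := by
        have : (2 : ℝ) ^ (k + 3 + 0) * x = 2 * (2 ^ (k + 2) * x) := by ring
        rw [this] at hm0
        linarith
      refine down x w hx hxx hw hw3 (hres _ Bn (by linarith) hxx hBn ?_ ?_ w hw (hwu x w hx0 hw3))
      · refine hBn'.trans (mul_le_mul_of_nonneg_left (mul_le_mul_of_nonneg_left ?_ hn) hγ)
        exact pow_le_pow_left₀ (by linarith) hux 6
      · intro v w' hv hv' hw' hw3'
        refine hst v w' (by linarith) (hv'.trans ?_) hw' hw3'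
        calc 2 * (2 ^ (k + 2) * x) ≤ 2 * (2 ^ (k + 2) * x0) := by linarith
          _ = 2 ^ (k + 3) * x0 := by ring
    | succ m ih =>
      intro x hx hx' hm1 w hw hw3
      have hx0 : 0 < x := by linarith
      rcases le_or_gt x0 (2 ^ (k + 3 + m) * x) with h | h
      · exact ih x hx hx' h w hw hw3
      · have hkm : (2 : ℝ) ^ (k + 3) * x ≤ 2 ^ (k + 3 + m) * x := by
          refine mul_le_mul_of_nonneg_right ?_ hx0.le
          exact pow_le_pow_right₀ (by norm_num) (by omega)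
        have hu0 : 2 * ((2 : ℝ) ^ (k + 2) * x) ≤ x0 := by
          have : 2 * ((2 : ℝ) ^ (k + 2) * x) = 2 ^ (k + 3) * x := by ring
          linarith
        have hxx : (2 : ℝ) ^ (k + 2) * x ≤ 2 ^ (k + 2) * x0 :=
          mul_le_mul_of_nonneg_left hx' (by positivity)
        have hu1 : 4 * x ≤ (2 : ℝ) ^ (k + 2) * x := mul_le_mul_of_nonneg_right h4x hx0.le
        refine down x w hx hxx hw hw3 (hres _ B (by linarith) hxx hB0 ?_ ?_ w hw
          (hwu x w hx0 hw3))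
        · refine hB2.trans (mul_le_mul_of_nonneg_left (mul_le_mul_of_nonneg_left ?_ hn) hγ)
          exact pow_le_pow_left₀ hx1.le (by linarith) 6
        · intro v w' hv hv' hw' hw3'
          refine ih v (by linarith) (by linarith) ?_ w' hw' hw3'
          have h5 : 2 * x ≤ v := by linarith
          calc x0 ≤ 2 ^ (k + 3 + (m + 1)) * x := hm1
            _ = 2 ^ (k + 3 + m) * (2 * x) := by ring
            _ ≤ 2 ^ (k + 3 + m) * v := mul_le_mul_of_nonneg_left h5 (by positivity)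
  intro x w hx hx' hw hw3
  obtain ⟨m, hm'⟩ : ∃ m : ℕ, x0 / x ≤ 2 ^ m := by
    obtain ⟨m, hm⟩ := pow_unbounded_of_one_lt (x0 / x) (by norm_num : (1 : ℝ) < 2)
    exact ⟨m, hm.le⟩
  have hx0 : 0 < x := by linarith
  refine main m x hx hx' ?_ w hw hw3
  rw [div_le_iff₀ hx0] at hm'
  refine hm'.trans (mul_le_mul_of_nonneg_right ?_ hx0.le)
  exact pow_le_pow_right₀ (by norm_num) (by omega)

end Vale.Agent.P146.H595.Star
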