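import Vale.Agent.P146.H595.Star

/-!
# P146, lower half: STAR, general form (helper595)

`star2` = `star` with a free window constant `R` (fields `w ≤ R x³`), the range `[u/2, 16u]` of
the crude input of the resets, and an abstract admissibility predicate `Ok b u` of the crude
constant at the scale `u`.  `reset2` = `reset'` with the row used only at the two fields `θ`, `w`.
-/

namespace Vale.Agent.P146.H595.Star

open Set

/-- **The reset at one scale**: the row is used at one field `v` with `ψ2 v = ψ2 0 - s`, and its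
affine bound only towards `θ`. -/
theorem reset2 {β C κ c e θ d u s s1 : ℝ} {ψ1 ψ2 : ℝ → ℝ} (hβ : 0 < β) (hC : 0 ≤ C) (hκ : 0 < κ)
    (he : 0 < e) (he1 : e < 1) (hθ : 0 < θ) (hd : 0 ≤ d)
    (hcc : ConcaveOn ℝ (Icc (0 : ℝ) 1) ψ2) (h0 : ψ2 0 - s1 ≤ ψ2 θ)
    (hup1 : ∀ w ∈ Icc θ e, ψ1 w ≤ ψ1 0 + u) (hgr : ψ1 0 + c * κ ≤ ψ2 0)
    (hrow : ∀ w ∈ Icc θ e, ψ2 0 - s ≤ ψ2 w → ∃ α K : ℝ,
      ψ2 θ ≤ ψ2 w + α / (4 * β) * (θ - w) + d ∧ ψ2 w - K * κ - d ≤ ψ1 w ∧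
      K ≤ (1 + C * max α 0) * (max α 0) ^ 3 / 12 + C * w * max α 0 + C * w * √w + d)
    (hs : s1 + d < s) (hcon : s + u + d + κ * (C * e * √e + d) < c * κ) :
    ∀ w ∈ Icc θ e, ψ2 0 - s ≤ ψ2 w := by
  intro w hw
  by_contra hlt
  push Not at hlt
  have hco : ContinuousOn ψ2 (Icc θ w) := by
    have h1 : ConcaveOn ℝ (Ioo (0 : ℝ) 1) ψ2 := hcc.subset Ioo_subset_Icc_self (convex_Ioo 0 1)
    have h2 : ContinuousOn ψ2 (Ioo (0 : ℝ) 1) := h1.continuousOn isOpen_Ioo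
    refine h2.mono fun z hz => ⟨by linarith [hz.1], by linarith [hz.2, hw.2]⟩
  have hmem : ψ2 0 - s ∈ Icc (ψ2 w) (ψ2 θ) := ⟨hlt.le, by linarith⟩
  obtain ⟨v, hv, hvs⟩ := intermediate_value_Icc' hw.1 hco hmem
  have hv2 : v ∈ Icc θ e := ⟨hv.1, hv.2.trans hw.2⟩
  obtain ⟨α, K, hag, hsg, hK⟩ := hrow v hv2 hvs.ge
  rcases le_or_gt α 0 with ha | ha
  · have hm : max α 0 = 0 := max_eq_right ha
    rw [hm] at hK
    have h8 : √v ≤ √e := Real.sqrt_le_sqrt hv2.2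
    have h9 : C * v * √v ≤ C * e * √e :=
      mul_le_mul (mul_le_mul_of_nonneg_left hv2.2 hC) h8 (Real.sqrt_nonneg _) (by positivity)
    have hK' : K ≤ C * e * √e + d := by
      have : (1 + C * (0 : ℝ)) * 0 ^ 3 / 12 + C * v * 0 + C * v * √v + d = C * v * √v + d := by
        ring
      rw [this] at hK
      linarith
    have h10 : K * κ ≤ κ * (C * e * √e + d) := by
      rw [mul_comm]
      exact mul_le_mul_of_nonneg_left hK' hκ.le
    have h11 := hup1 v hv2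
    linarith
  · have h12 : α / (4 * β) * (θ - v) ≤ 0 :=
      mul_nonpos_of_nonneg_of_nonpos (by positivity) (by linarith [hv2.1])
    linarith

/-- `j` octaves down, fields `w ≤ R x³`. -/
lemma octR {P : ℝ → ℝ → ℝ} {n β C w l X R : ℝ} (hn : 0 ≤ n) (hC : 0 ≤ C) (hR : 0 ≤ R) (x1 : ℝ)
    (hx1 : 0 < x1)
    (hconv : ∀ x, x1 ≤ x → 2 * x ≤ X → w ≤ R * x ^ 3 → 4 * P (2 * x) w - 3 * P (3 * x) w ≤ P x w)
    (hup : ∀ x, x1 ≤ x → 2 * x ≤ X → w ≤ R * x ^ 3 →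
      P (3 * x) w ≤ P (3 * x) 0 + n * w / (2 * β) + C * n * (3 * x) ^ 5)
    (hz : ∀ x, x1 ≤ x → 2 * x ≤ X → P (3 * x) 0 ≤ P x 0 + C * n * x ^ 5)
    (hm : ∀ x, x1 ≤ x → 2 * x ≤ X → P x 0 ≤ P (2 * x) 0) :
    ∀ (j : ℕ) (x : ℝ), x1 ≤ x → w ≤ R * x ^ 3 → 2 ^ j * x ≤ X → Lo P n β (2 ^ j * x) w l →
      Lo P n β x w (128 ^ j * (l + 6 * C) - 6 * C) := by
  intro j
  induction j with
  | zero =>
    intro x hx _ _ h
    simp only [pow_zero, one_mul] at h ⊢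
    exact h.mono hn (by linarith) (by linarith)
  | succ j ih =>
    intro x hx hw hX h
    have h2 : 2 ^ (j + 1) * x = 2 ^ j * (2 * x) := by ring
    rw [h2] at h hX
    have hx0 : 0 < x := by linarith
    have hj1 : (1 : ℝ) ≤ 2 ^ j := one_le_pow₀ (by norm_num)
    have h2x : 2 * x ≤ X := by
      have : 1 * (2 * x) ≤ 2 ^ j * (2 * x) := mul_le_mul_of_nonneg_right hj1 (by linarith)
      linarith
    have hw' : w ≤ R * (2 * x) ^ 3 := by
      have h3 : R * (2 * x) ^ 3 = 8 * (R * x ^ 3) := by ring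
      have h4 : 0 ≤ R * x ^ 3 := by positivity
      linarith
    have h3 := ih (2 * x) (by linarith) hw' hX h
    have h4 := oct1 (hconv x hx h2x hw) (hup x hx h2x hw) (hz x hx h2x) (hm x hx h2x) h3
    refine h4.mono hn hx0.le ?_
    have h5 : (128 : ℝ) ^ (j + 1) * (l + 6 * C) = 128 * (128 ^ j * (l + 6 * C)) := by ring
    rw [h5]
    linarith

/-- **STAR, abstract form.** -/
theorem star2 {P : ℝ → ℝ → ℝ} {n β C L B Bn R e x0 x1 : ℝ} {k : ℕ} {Ok : ℝ → ℝ → Prop}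
    (hn : 0 ≤ n) (hC : 0 ≤ C) (hR : 0 ≤ R) (hx1 : 0 < x1)
    (hk : R ≤ e * 8 ^ (k + 4))
    (hconv : ∀ x w, x1 ≤ x → 2 * x ≤ 2 ^ (k + 4) * x0 → 0 ≤ w → w ≤ R * x ^ 3 →
      4 * P (2 * x) w - 3 * P (3 * x) w ≤ P x w)
    (hup : ∀ x w, x1 ≤ x → 2 * x ≤ 2 ^ (k + 4) * x0 → 0 ≤ w → w ≤ R * x ^ 3 →
      P (3 * x) w ≤ P (3 * x) 0 + n * w / (2 * β) + C * n * (3 * x) ^ 5)
    (hz : ∀ x, x1 ≤ x → 2 * x ≤ 2 ^ (k + 4) * x0 → P (3 * x) 0 ≤ P x 0 + C * n * x ^ 5)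
    (hm : ∀ x, x1 ≤ x → 2 * x ≤ 2 ^ (k + 4) * x0 → P x 0 ≤ P (2 * x) 0)
    (hst : ∀ v w, x0 / 32 ≤ v → v ≤ 2 ^ (k + 8) * x0 → 0 ≤ w → w ≤ R * v ^ 3 →
      Lo P n β v w Bn)
    (hOn : ∀ u, x0 / 16 ≤ u → u ≤ 2 ^ (k + 4) * x0 → Ok Bn u)
    (hres : ∀ u b, 16 * x1 ≤ u → u ≤ 2 ^ (k + 4) * x0 → Ok b u →
      (∀ v w, u / 2 ≤ v → v ≤ 16 * u → 0 ≤ w → w ≤ R * v ^ 3 → Lo P n β v w b) →
      ∀ w, 0 ≤ w → w ≤ e * u ^ 3 → Lo P n β u w L)
    (hB1 : 128 ^ (k + 4) * (L + 6 * C) ≤ B)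
    (hOB : ∀ u, 16 * x1 ≤ u → u ≤ 2 ^ (k + 4) * x0 → Ok B u) :
    ∀ x w, x1 ≤ x → x ≤ x0 → 0 ≤ w → w ≤ R * x ^ 3 → Lo P n β x w B := by
  -- from a reset at `u = 2 ^ (k + 4) x` down to `x`
  have down : ∀ x w, x1 ≤ x → 2 ^ (k + 4) * x ≤ 2 ^ (k + 4) * x0 → 0 ≤ w → w ≤ R * x ^ 3 →
      Lo P n β (2 ^ (k + 4) * x) w L → Lo P n β x w B := by
    intro x w hx hxx hw hw3 hE
    have h6 := octR (P := P) (n := n) (β := β) (C := C) (w := w) (l := L)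
      (X := 2 ^ (k + 4) * x0) hn hC hR x1 hx1
      (fun y hy hy' hyw => hconv y w hy hy' hw hyw)
      (fun y hy hy' hyw => hup y w hy hy' hw hyw) hz hm (k + 4) x hx hw3 hxx hE
    exact h6.mono hn (by linarith) (by linarith)
  have hwu : ∀ x w, 0 < x → w ≤ R * x ^ 3 → w ≤ e * (2 ^ (k + 4) * x) ^ 3 := by
    intro x w hx hw3
    calc w ≤ R * x ^ 3 := hw3
      _ ≤ (e * 8 ^ (k + 4)) * x ^ 3 := mul_le_mul_of_nonneg_right hk (by positivity)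
      _ = e * (2 ^ (k + 4) * x) ^ 3 := by
          have : (8 : ℝ) ^ (k + 4) = (2 ^ (k + 4)) ^ 3 := by
            rw [← pow_mul, mul_comm, pow_mul]; norm_num
          rw [this]; ring
  have h4x : (16 : ℝ) ≤ 2 ^ (k + 4) := by
    have : (2 : ℝ) ^ 4 ≤ 2 ^ (k + 4) := pow_le_pow_right₀ (by norm_num) (by omega)
    linarith
  have main : ∀ m : ℕ, ∀ x, x1 ≤ x → x ≤ x0 → x0 ≤ 2 ^ (k + 8 + m) * x →
      ∀ w, 0 ≤ w → w ≤ R * x ^ 3 → Lo P n β x w B := by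
    intro m
    induction m with
    | zero =>
      intro x hx hx' hm0 w hw hw3
      have hx0 : 0 < x := by linarith
      have hxx : (2 : ℝ) ^ (k + 4) * x ≤ 2 ^ (k + 4) * x0 :=
        mul_le_mul_of_nonneg_left hx' (by positivity)
      have hu1 : 16 * x ≤ (2 : ℝ) ^ (k + 4) * x := mul_le_mul_of_nonneg_right h4x hx0.le
      have hux : x0 / 16 ≤ 2 ^ (k + 4) * x := by
        have : (2 : ℝ) ^ (k + 8 + 0) * x = 16 * (2 ^ (k + 4) * x) := by ring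
        rw [this] at hm0
        linarith
      refine down x w hx hxx hw hw3 (hres _ Bn (by linarith) hxx (hOn _ hux hxx) ?_ w hw
        (hwu x w hx0 hw3))
      intro v w' hv hv' hw' hw3'
      refine hst v w' (by linarith) (hv'.trans ?_) hw' hw3'
      calc 16 * (2 ^ (k + 4) * x) ≤ 16 * (2 ^ (k + 4) * x0) := by linarith
        _ = 2 ^ (k + 8) * x0 := by ring
    | succ m ih =>
      intro x hx hx' hm1 w hw hw3
      have hx0 : 0 < x := by linarith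
      rcases le_or_gt x0 (2 ^ (k + 8 + m) * x) with h | h
      · exact ih x hx hx' h w hw hw3
      · have hkm : (2 : ℝ) ^ (k + 8) * x ≤ 2 ^ (k + 8 + m) * x := by
          refine mul_le_mul_of_nonneg_right ?_ hx0.le
          exact pow_le_pow_right₀ (by norm_num) (by omega)
        have hu0 : 16 * ((2 : ℝ) ^ (k + 4) * x) ≤ x0 := by
          have : 16 * ((2 : ℝ) ^ (k + 4) * x) = 2 ^ (k + 8) * x := by ring
          linarith
        have hxx : (2 : ℝ) ^ (k + 4) * x ≤ 2 ^ (k + 4) * x0 :=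
          mul_le_mul_of_nonneg_left hx' (by positivity)
        have hu1 : 16 * x ≤ (2 : ℝ) ^ (k + 4) * x := mul_le_mul_of_nonneg_right h4x hx0.le
        refine down x w hx hxx hw hw3 (hres _ B (by linarith) hxx (hOB _ (by linarith) hxx) ?_ w hw
          (hwu x w hx0 hw3))
        intro v w' hv hv' hw' hw3'
        refine ih v (by linarith) (by linarith) ?_ w' hw' hw3'
        have h5 : 2 * x ≤ v := by linarith
        calc x0 ≤ 2 ^ (k + 8 + (m + 1)) * x := hm1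
          _ = 2 ^ (k + 8 + m) * (2 * x) := by ring
          _ ≤ 2 ^ (k + 8 + m) * v := mul_le_mul_of_nonneg_left h5 (by positivity)
  intro x w hx hx' hw hw3
  obtain ⟨m, hm'⟩ : ∃ m : ℕ, x0 / x ≤ 2 ^ m := by
    obtain ⟨m, hm⟩ := pow_unbounded_of_one_lt (x0 / x) (by norm_num : (1 : ℝ) < 2)
    exact ⟨m, hm.le⟩
  have hx0 : 0 < x := by linarith
  refine main m x hx hx' ?_ w hw hw3
  rw [div_le_iff₀ hx0] at hm'
  refine hm'.trans (mul_le_mul_of_nonneg_right ?_ hx0.le)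
  exact pow_le_pow_right₀ (by norm_num) (by omega)

end Vale.Agent.P146.H595.Star
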