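import Vale.Agent.P146.H595.Star2
import Vale.Agent.P146.H560.Unit
import Vale.Agent.P146.H645x.BoxB
import Vale.Agent.P146.H645x.HitQ
import Vale.Agent.P146.H479.Move

/-!
# P146, lower half: STAR in the SK letters (helper595), part A

The functions `psiU` of helper560 are concave in the field, bounded below by the box, and the reset
lemma gives the lower side of the a priori bound at the exponent `(1 + κ) u`.
-/

open MeasureTheory ProbabilityTheory Set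

namespace Vale.Agent.P146.H595

open Vale.Agent.P157 Vale.Agent.P157.Lv Vale.Agent.P157.Lv.Sy
open Vale.Agent.P146.H425 Vale.Agent.P146.H325 Vale.Agent.P146.H93 Vale.Agent.P146.U
open Vale.Agent.P146.H332 Vale.Agent.P146.R1 Vale.Agent.P146.H479 Vale.Agent.P146.H560
open Vale.Agent.P146.H758

variable {n : ℕ} {β κ T1 u s v w S b L ε : ℝ}

/-- The two-sided box of the pure laws at the scale `u`. -/
def Bx (n : ℕ) (β B u : ℝ) : Prop :=
  ∀ v V : ℝ, u / 2 ≤ v → v ≤ 4 * u → 0 ≤ V → V ≤ 8 * u ^ 3 →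
    |Pu n β v V - P1 n β v - n / (2 * β) * V| ≤ B * (n * u ^ 5)

lemma wU_av (u w : ℝ) : wU u w = H479.av (fun _ => 0) 2 (w * u ^ 3) := by
  funext j
  unfold H479.av
  by_cases hj : j = 2
  · subst hj
    rw [if_pos rfl]
    show √(w * u ^ 3) = _
    congr 1
    ring
  · rw [if_neg hj]
    rcases j with _ | _ | _ | j
    · rfl
    · rfl
    · exact absurd rfl hj
    · rfl

lemma na_bU (hβ : 0 ≤ β) (n : ℕ) (T1 u s : ℝ) : Na 3 (bU n β T1 u s) := by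
  intro j h1 h2
  have hq : 0 ≤ β / √n := div_nonneg hβ (Real.sqrt_nonneg _)
  have : j = 1 ∨ j = 2 ∨ j = 3 := by omega
  rcases this with rfl | rfl | rfl
  · exact mul_nonneg hq (Real.sqrt_nonneg _)
  · exact mul_nonneg hq (Real.sqrt_nonneg _)
  · exact mul_nonneg hq (Real.sqrt_nonneg _)

/-- `psiU` is concave in the field. -/
theorem psi_conc (hβ : 0 ≤ β) (hn : 0 < n) (hu : 0 < u) (hv : 51 / 100 ≤ v) (hv' : v ≤ 1 + κ)
    (h1 : (1 + κ) * u ≤ 1) : ConcaveOn ℝ (Icc (0 : ℝ) 1) (psiU n β κ T1 u s v) := by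
  have hn' : (0 : ℝ) < n := Nat.cast_pos.2 hn
  have h := fe_av_conc (n := n) (em_mU hu hv hv' h1) (na_bU hβ n T1 u s)
    (w := fun _ => 0) (fun _ _ _ => le_rfl) 2 (A := u ^ 3) (by positivity)
  refine ⟨convex_Icc 0 1, fun a ha c hc p q hp hq hpq => ?_⟩
  have h2 := h.2 ha hc hp hq hpq
  simp only [smul_eq_mul] at h2 ⊢
  have e : ∀ t : ℝ, (skS n 3 (mU κ u v) (bU n β T1 u s) (H479.av (fun _ => 0) 2 (t * u ^ 3))).fe =
      (n * u ^ 5) * psiU n β κ T1 u s v t + P1 n β (51 / 100 * u) + n * (t * u ^ 3) / (2 * β) := by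
    intro t
    unfold psiU
    rw [wU_av]
    have : (n : ℝ) * u ^ 5 ≠ 0 := by positivity
    field_simp
    ring
  rw [e, e, e] at h2
  have hN : 0 < (n : ℝ) * u ^ 5 := by positivity
  have e2 : p * (n * (a * u ^ 3) / (2 * β)) + q * (n * (c * u ^ 3) / (2 * β)) =
      n * ((p * a + q * c) * u ^ 3) / (2 * β) := by ring
  have e3 : p * P1 n β (51 / 100 * u) + q * P1 n β (51 / 100 * u) = P1 n β (51 / 100 * u) := by
    rw [← add_mul, hpq, one_mul]
  have h3 : (n * u ^ 5) * (p * psiU n β κ T1 u s v a + q * psiU n β κ T1 u s v c) ≤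
      (n * u ^ 5) * psiU n β κ T1 u s v (p * a + q * c) := by
    linarith
  exact le_of_mul_le_mul_left h3 hN

lemma tv_wU (hu : 0 ≤ u) (hw : 0 ≤ w) : tv 3 (wU u w) = w * u ^ 3 := by
  unfold tv
  rw [Finset.sum_range_succ, Finset.sum_range_succ, Finset.sum_range_succ, Finset.sum_range_zero]
  show 0 + (0 : ℝ) ^ 2 + √(w * u ^ 3) ^ 2 + (0 : ℝ) ^ 2 = _
  rw [Real.sq_sqrt (by positivity)]
  ring

lemma tv_bU (hn : 0 < n) (hT : 0 ≤ T1) (hTs : T1 ≤ s) (hsu : s * u ^ 2 ≤ 1) :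
    tv 3 (bU n β T1 u s) = β ^ 2 / n := by
  have hn' : (0 : ℝ) < n := Nat.cast_pos.2 hn
  have hq : (β / √n) ^ 2 = β ^ 2 / n := by rw [div_pow, Real.sq_sqrt hn'.le]
  have h1 : 0 ≤ T1 * u ^ 2 := by positivity
  have h2 : 0 ≤ (s - T1) * u ^ 2 := mul_nonneg (by linarith) (by positivity)
  unfold tv
  rw [Finset.sum_range_succ, Finset.sum_range_succ, Finset.sum_range_succ, Finset.sum_range_zero]
  show 0 + (β / √n * √(1 - s * u ^ 2)) ^ 2 + (β / √n * √((s - T1) * u ^ 2)) ^ 2 +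
    (β / √n * √(T1 * u ^ 2)) ^ 2 = _
  rw [mul_pow, mul_pow, mul_pow, Real.sq_sqrt (by linarith), Real.sq_sqrt h2, Real.sq_sqrt h1, hq]
  ring

lemma ex2_mU (hu : 0 < u) (hv : 51 / 100 ≤ v) (hv' : v ≤ 1 + κ) (h1 : (1 + κ) * u ≤ 1) :
    Ex2 3 (mU κ u v) (51 / 100 * u) ((1 + κ) * u) where
  em := em_mU hu hv hv' h1
  K1 := by norm_num
  y0 := by positivity
  Y1 := h1
  ge := le_rfl
  le := le_rfl

/-- the lower side of the mixed laws from the box -/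
theorem psi_lo (hβ : 0 ≤ β) (hn : 0 < n) (hu : 0 < u) (hv : 51 / 100 ≤ v) (hv' : v ≤ 1 + κ)
    (h1 : (1 + κ) * u ≤ 1) (hT : 0 ≤ T1) (hTs : T1 ≤ s) (hsu : s * u ^ 2 ≤ 1) (hB : Bx n β b u)
    (hw : w ∈ Icc (0 : ℝ) 1) : -b ≤ psiU n β κ T1 u s v w := by
  have hn' : (0 : ℝ) < n := Nat.cast_pos.2 hn
  have hN : 0 < (n : ℝ) * u ^ 5 := by positivity
  have h2 := (sandwich (n := n) (w := wU u w) (ex2_mU hu hv hv' h1) hβ
    (tv_bU (β := β) hn hT hTs hsu)).1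
  rw [tv_wU hu.le hw.1] at h2
  have hu3 : 0 ≤ u ^ 3 := by positivity
  have h3 := (abs_le.1 (hB (51 / 100 * u) (w * u ^ 3) (by linarith) (by linarith)
    (mul_nonneg hw.1 hu3) (by nlinarith [hw.2]))).1
  unfold psiU
  rw [le_div_iff₀ hN]
  have e : (n : ℝ) / (2 * β) * (w * u ^ 3) = n * (w * u ^ 3) / (2 * β) := by ring
  rw [e] at h3
  linarith

/-- the upper side of the mixed laws by the pure law of the largest exponent -/
theorem psi_le_Pu (hβ : 0 ≤ β) (hn : 0 < n) (hu : 0 < u) (hv : 51 / 100 ≤ v) (hv' : v ≤ 1 + κ)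
    (h1 : (1 + κ) * u ≤ 1) (hT : 0 ≤ T1) (hTs : T1 ≤ s) (hsu : s * u ^ 2 ≤ 1) (hw : 0 ≤ w) :
    P1 n β (51 / 100 * u) + n / (2 * β) * (w * u ^ 3) + n * u ^ 5 * psiU n β κ T1 u s v w ≤
      Pu n β ((1 + κ) * u) (w * u ^ 3) := by
  have hn' : (0 : ℝ) < n := Nat.cast_pos.2 hn
  have h2 := (sandwich (n := n) (w := wU u w) (ex2_mU hu hv hv' h1) hβ
    (tv_bU (β := β) hn hT hTs hsu)).2
  rw [tv_wU hu.le hw] at h2
  refine le_trans (le_of_eq ?_) h2
  unfold psiU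
  have : (n : ℝ) * u ^ 5 ≠ 0 := by positivity
  field_simp
  ring

/-- **The reset in the SK letters**: from the lower side of `psiU (1 + κ)` to the lower side of the
pure law at the exponent `(1 + κ) u`. -/
theorem lo_of_psi (hβ : 0 ≤ β) (hn : 0 < n) (hu : 0 < u) (hκ : 0 ≤ κ)
    (h1 : (1 + κ) * u ≤ 1) (hT : 0 ≤ T1) (hTs : T1 ≤ s) (hsu : s * u ^ 2 ≤ 1) (hw : 0 ≤ w)
    (h0 : pU n β u (1 + κ) - ε ≤ psiU n β κ T1 u s (1 + κ) 0)
    (hlo : psiU n β κ T1 u s (1 + κ) 0 - L ≤ psiU n β κ T1 u s (1 + κ) w) :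
    P1 n β ((1 + κ) * u) + n / (2 * β) * (w * u ^ 3) - (L + ε) * (n * u ^ 5) ≤
      Pu n β ((1 + κ) * u) (w * u ^ 3) := by
  have hn' : (0 : ℝ) < n := Nat.cast_pos.2 hn
  have hN : 0 < (n : ℝ) * u ^ 5 := by positivity
  refine le_trans ?_ (psi_le_Pu (v := 1 + κ) hβ hn hu (by linarith) le_rfl h1 hT hTs hsu hw)
  have h3 : pU n β u (1 + κ) - ε - L ≤ psiU n β κ T1 u s (1 + κ) w := by linarith
  have h4 := mul_le_mul_of_nonneg_left h3 hN.le
  have e : n * u ^ 5 * (pU n β u (1 + κ) - ε - L) =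
      P1 n β ((1 + κ) * u) - P1 n β (51 / 100 * u) - (L + ε) * (n * u ^ 5) := by
    unfold pU
    have : (n : ℝ) * u ^ 5 ≠ 0 := by positivity
    field_simp
    ring
  rw [e] at h4
  linarith

end Vale.Agent.P146.H595
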