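import Vale.Agent.P146.H595.StarA

/-!
# P146, lower half: STAR in the SK letters (helper595), part B

The upper side of the mixed law of the exponent `u` and the reset at one scale.
-/

open MeasureTheory ProbabilityTheory Set

namespace Vale.Agent.P146.H595

open Vale.Agent.P157 Vale.Agent.P157.Lv Vale.Agent.P157.Lv.Sy
open Vale.Agent.P146.H425 Vale.Agent.P146.H325 Vale.Agent.P146.H93 Vale.Agent.P146.U
open Vale.Agent.P146.H332 Vale.Agent.P146.R1 Vale.Agent.P146.H479 Vale.Agent.P146.H560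
open Vale.Agent.P146.H758
open Vale.Agent.P146.H66 (cm em_cm fe_mono_m)

variable {n : ℕ} {β κ T1 u s v w S b L ε c' C2 : ℝ}

/-- two exponents -/
noncomputable def m2 (x z : ℝ) : ℕ → ℝ
  | 0 => 0
  | 1 => x
  | 2 => z
  | _ => 1

/-- bonds: the share `1 - T` on the level `1`, `T` on the level `2` -/
noncomputable def b2 (n : ℕ) (β T : ℝ) : ℕ → ℝ
  | 1 => β / √n * √(1 - T)
  | 2 => β / √n * √T
  | _ => 0

/-- field of variance `V` on the level `1` -/
noncomputable def w2 (V : ℝ) : ℕ → ℝ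
  | 1 => √V
  | _ => 0

lemma em_m2 {x z : ℝ} (hx : 0 < x) (hxz : x ≤ z) (hz : z ≤ 1) : Em 2 (m2 x z) where
  m0 := rfl
  mK := rfl
  mono := fun l hl => by
    rcases l with _ | _ | _ | l
    · exact hx.le
    · exact hxz
    · exact hz
    · omega
  pos := hx

/-- the law of `psiU S 1 w` is below the two-level law with the outer exponent `u` -/
theorem fe_le_two (hu : 0 < u) (hκ : 0 ≤ κ) (h1 : (1 + κ) * u ≤ 1)
    (hT : 0 ≤ T1) (hTS : T1 ≤ S) (hSu : S * u ^ 2 ≤ 1) (hw : 0 ≤ w) :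
    (skS n 3 (mU κ u 1) (bU n β T1 u S) (wU u w)).fe ≤
      (skS n 2 (m2 u ((1 + κ) * u)) (b2 n β (T1 * u ^ 2)) (w2 (w * u ^ 3))).fe := by
  have hz : u ≤ (1 + κ) * u := by
    have : 0 ≤ κ * u := mul_nonneg hκ hu.le
    linarith
  -- raise the first exponent
  let m' : ℕ → ℝ := fun j => if j = 1 then u else mU κ u 1 j
  have em' : Em 3 m' :=
    { m0 := rfl
      mK := rfl
      mono := fun l hl => by
        rcases l with _ | _ | _ | _ | l
        · show (0 : ℝ) ≤ u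
          exact hu.le
        · show u ≤ 1 * u
          rw [one_mul]
        · show 1 * u ≤ (1 + κ) * u
          rw [one_mul]; exact hz
        · exact h1
        · omega
      pos := hu }
  have hA := fe_mono_m (n := n) (em_mU (κ := κ) (v := 1) hu (by norm_num) (by linarith) h1) em'
    (fun j hj1 hj2 => by
      have : j = 1 ∨ j = 2 ∨ j = 3 := by omega
      rcases this with rfl | rfl | rfl
      · show 51 / 100 * u ≤ u
        linarith
      · exact le_rfl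
      · exact le_rfl) (bU n β T1 u S) (wU u w)
  refine hA.trans (le_of_eq ?_)
  have q1 : 0 ≤ 1 - S * u ^ 2 := by linarith
  have q2 : 0 ≤ (S - T1) * u ^ 2 := mul_nonneg (by linarith) (by positivity)
  have q3 : 0 ≤ 1 - T1 * u ^ 2 := by
    have : (S - T1) * u ^ 2 = S * u ^ 2 - T1 * u ^ 2 := by ring
    linarith
  refine fe_cl (i := 1) (ClS.merge le_rfl ?_ ?_ hu ?_ ?_ ?_ ?_) em' (em_m2 hu hz h1) (by norm_num)
  · intro j h h'
    omega
  · intro j hj
    rcases j with _ | _ | _ | j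
    · omega
    · omega
    · exact ⟨rfl, rfl, rfl⟩
    · exact ⟨rfl, rfl, rfl⟩
  · show 1 * u = u
    rw [one_mul]
  · rfl
  · show (β / √n * √(1 - S * u ^ 2)) ^ 2 + (β / √n * √((S - T1) * u ^ 2)) ^ 2 =
      (β / √n * √(1 - T1 * u ^ 2)) ^ 2
    rw [mul_pow, mul_pow, mul_pow, Real.sq_sqrt q1, Real.sq_sqrt q2, Real.sq_sqrt q3]
    ring
  · show (0 : ℝ) ^ 2 + √(w * u ^ 3) ^ 2 = √(w * u ^ 3) ^ 2
    ring

/-- **The upper side of the mixed law at the exponent `u`.** -/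
theorem psi_up (hn : 0 < n) (hu : 0 < u) (hκ : 0 ≤ κ) (hκ1 : κ ≤ 1 / 200)
    (h1 : (1 + κ) * u ≤ 1) (hT : 0 < T1) (hTS : T1 ≤ S) (hSu : S * u ^ 2 ≤ 1) (hw : 0 ≤ w)
    (hh : SS u ((1 + κ) * u) (√(1 - T1 * u ^ 2)) (√(T1 * u ^ 2)) (Fsk n β) ≤
      C2 * (n * u ^ 4 * (T1 * u ^ 2 / u ^ 2) ^ (1 / 600 : ℝ)))
    (hcp : (skS n 2 (m2 u ((1 + κ) * u)) (b2 n β (T1 * u ^ 2)) (w2 (w * u ^ 3))).fe ≤
      P2 n β u (T1 * u ^ 2) ((1 + κ) * u) + n / (2 * β) * (w * u ^ 3) + c' * (n * u ^ 5))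
    (hl : pU n β u 1 - ε ≤ psiU n β κ T1 u S 1 0) :
    psiU n β κ T1 u S 1 w ≤ psiU n β κ T1 u S 1 0 + (ε + C2 * T1 ^ (1 / 600 : ℝ) + c') := by
  have hn' : (0 : ℝ) < n := Nat.cast_pos.2 hn
  have hN : 0 < (n : ℝ) * u ^ 5 := by positivity
  have q2 : 0 ≤ (S - T1) * u ^ 2 := mul_nonneg (by linarith) (by positivity)
  have hTu : T1 * u ^ 2 ≤ 1 := by
    have : (S - T1) * u ^ 2 = S * u ^ 2 - T1 * u ^ 2 := by ring
    linarith
  have h2 := fe_le_two (n := n) (β := β) hu hκ h1 hT.le hTS hSu hw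
  have h3 := link_head (n := n) (β := β) hu hκ hκ1 hT hTu hh
  have h4 : P1 n β u - P1 n β (51 / 100 * u) ≤
      (n * u ^ 5) * (psiU n β κ T1 u S 1 0 + ε) := by
    have h5 : pU n β u 1 ≤ psiU n β κ T1 u S 1 0 + ε := by linarith
    have h6 := mul_le_mul_of_nonneg_left h5 hN.le
    refine le_trans (le_of_eq ?_) h6
    unfold pU
    rw [one_mul]
    field_simp
  have h7 : psiU n β κ T1 u S 1 w * (n * u ^ 5) =
      (skS n 3 (mU κ u 1) (bU n β T1 u S) (wU u w)).fe - P1 n β (51 / 100 * u) -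
        n * (w * u ^ 3) / (2 * β) := by
    unfold psiU
    rw [div_mul_cancel₀ _ hN.ne']
  have e : (n : ℝ) / (2 * β) * (w * u ^ 3) = n * (w * u ^ 3) / (2 * β) := by ring
  rw [e] at hcp
  have h8 : psiU n β κ T1 u S 1 w * (n * u ^ 5) ≤
      (psiU n β κ T1 u S 1 0 + (ε + C2 * T1 ^ (1 / 600 : ℝ) + c')) * (n * u ^ 5) := by
    have e2 : (psiU n β κ T1 u S 1 0 + (ε + C2 * T1 ^ (1 / 600 : ℝ) + c')) * (n * u ^ 5) =
        (n * u ^ 5) * (psiU n β κ T1 u S 1 0 + ε) + C2 * T1 ^ (1 / 600 : ℝ) * (n * u ^ 5) +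
          c' * (n * u ^ 5) := by ring
    rw [h7, e2]
    linarith
  exact le_of_mul_le_mul_right h8 hN

/-- **The reset at one scale, SK letters.**  All numbers explicit. -/
theorem reset_SK {C d e θ s1 sg c up : ℝ} (hβ : 0 < β) (hn : 0 < n) (hu : 0 < u) (hκ : 0 < κ)
    (h1 : (1 + κ) * u ≤ 1) (hT : 0 ≤ T1) (hTS : T1 ≤ S) (hSu : S * u ^ 2 ≤ 1)
    (hC : 0 ≤ C) (he : 0 < e) (he1 : e < 1) (hθ : 0 < θ) (hd : 0 ≤ d)
    -- the box
    (hB : Bx n β b u)
    (hb0 : psiU n β κ T1 u S (1 + κ) 0 ≤ L) (hθb : θ * (b + L) ≤ s1)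
    -- growth at zero field
    (hgr : psiU n β κ T1 u S 1 0 + c * κ ≤ psiU n β κ T1 u S (1 + κ) 0)
    -- upper side
    (hup : ∀ w ∈ Icc θ e, psiU n β κ T1 u S 1 w ≤ psiU n β κ T1 u S 1 0 + up)
    -- the row
    (hrow : ∀ w ∈ Icc θ e, psiU n β κ T1 u S (1 + κ) 0 - sg ≤ psiU n β κ T1 u S (1 + κ) w →
      ∃ α K : ℝ, psiU n β κ T1 u S (1 + κ) θ ≤
        psiU n β κ T1 u S (1 + κ) w + α / (4 * β) * (θ - w) + d ∧
        psiU n β κ T1 u S (1 + κ) w - K * κ - d ≤ psiU n β κ T1 u S 1 w ∧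
        K ≤ (1 + C * max α 0) * (max α 0) ^ 3 / 12 + C * w * max α 0 + C * w * √w + d)
    (hs : s1 + d < sg) (hcon : sg + up + d + κ * (C * e * √e + d) < c * κ)
    -- link
    (h0 : pU n β u (1 + κ) - ε ≤ psiU n β κ T1 u S (1 + κ) 0) :
    ∀ V, 0 ≤ V → V ≤ e * u ^ 3 →
      P1 n β ((1 + κ) * u) + n / (2 * β) * V - (sg + ε) * (n * u ^ 5) ≤
        Pu n β ((1 + κ) * u) V := by
  have hcc := psi_conc (T1 := T1) (s := S) (v := 1 + κ) hβ.le hn hu (by linarith) le_rfl h1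
  have hlo1 := psi_lo (T1 := T1) (s := S) (v := 1 + κ) (w := 1) hβ.le hn hu (by linarith) le_rfl h1
    hT hTS hSu hB ⟨by norm_num, le_rfl⟩
  rcases lt_or_ge e θ with hθe | hθe
  · -- `e < θ`: concavity alone
    intro V hV hVe
    have hu3 : 0 < u ^ 3 := by positivity
    obtain ⟨w, hw⟩ : ∃ w, w = V / u ^ 3 := ⟨_, rfl⟩
    have hwV : w * u ^ 3 = V := by rw [hw]; exact div_mul_cancel₀ _ hu3.ne'
    have hw0 : 0 ≤ w := by rw [hw]; positivity
    have hwe : w ≤ e := by rw [hw, div_le_iff₀ hu3]; exact hVe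
    have h3 := Star.cc_lo hcc (B := b + L) (by linarith) hw0 (by linarith)
    have hbL : 0 ≤ b + L := by
      have := psi_lo (T1 := T1) (s := S) (v := 1 + κ) (w := 0) hβ.le hn hu (by linarith) le_rfl h1
        hT hTS hSu hB ⟨le_rfl, by norm_num⟩
      linarith
    have h4 : w * (b + L) ≤ θ * (b + L) := mul_le_mul_of_nonneg_right (by linarith) hbL
    have h5 := lo_of_psi (L := sg) hβ.le hn hu hκ.le h1 hT hTS hSu hw0 h0 (by linarith)
    rw [hwV] at h5
    exact h5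
  · have h2 := Star.cc_lo hcc (B := b + L) (θ := θ) (by linarith) hθ.le (by linarith)
    have hres := Star.reset2 hβ hC hκ he he1 hθ hd hcc (by linarith : psiU n β κ T1 u S (1 + κ) 0 - s1 ≤
      psiU n β κ T1 u S (1 + κ) θ) hup hgr hrow hs hcon
    intro V hV hVe
    have hu3 : 0 < u ^ 3 := by positivity
    obtain ⟨w, hw⟩ : ∃ w, w = V / u ^ 3 := ⟨_, rfl⟩
    have hwV : w * u ^ 3 = V := by rw [hw]; exact div_mul_cancel₀ _ hu3.ne'
    have hw0 : 0 ≤ w := by rw [hw]; positivity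
    have hwe : w ≤ e := by rw [hw, div_le_iff₀ hu3]; exact hVe
    have hlow : psiU n β κ T1 u S (1 + κ) 0 - sg ≤ psiU n β κ T1 u S (1 + κ) w := by
      rcases le_or_gt θ w with h | h
      · exact hres w ⟨h, hwe⟩
      · have h3 := Star.cc_lo hcc (B := b + L) (by linarith) hw0 (by linarith)
        have hbL : 0 ≤ b + L := by
          have := psi_lo (T1 := T1) (s := S) (v := 1 + κ) (w := 0) hβ.le hn hu (by linarith)
            le_rfl h1 hT hTS hSu hB ⟨le_rfl, by norm_num⟩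
          linarith
        have h4 : w * (b + L) ≤ θ * (b + L) := mul_le_mul_of_nonneg_right h.le hbL
        linarith
    have h5 := lo_of_psi (L := sg) hβ.le hn hu hκ.le h1 hT hTS hSu hw0 h0 hlow
    rw [hwV] at h5
    exact h5

end Vale.Agent.P146.H595
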