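import Vale.Agent.P146.H595.StarB
import Vale.Agent.P146.H865.LO

/-!
# P146, lower half: STAR in the SK letters (helper595), part C

The inputs of `star_out` (part F): the upper sides (`PuC`, `CPs`), the increments (`Inc`) and the
start (`StP`), in the literal letters of their producers; comparison of powers of `n`; the growth in
the units of `psiU`.
-/

open MeasureTheory ProbabilityTheory Set Filter Topology

namespace Vale.Agent.P146.H595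

open Vale.Agent.P157 Vale.Agent.P157.Lv Vale.Agent.P157.Lv.Sy
open Vale.Agent.P146.H425 Vale.Agent.P146.H325 Vale.Agent.P146.H93 Vale.Agent.P146.U
open Vale.Agent.P146.H332 Vale.Agent.P146.R1 Vale.Agent.P146.H479 Vale.Agent.P146.H560
open Vale.Agent.P146.H758 Vale.Agent.P146.H865 Vale.Agent.P146.H645x

/-- **(C)**, constant version, for the pure laws (`H310.PuC`). -/
def PuC (β : ℝ) : Prop := ∃ C K : ℝ, ∃ n0 : ℕ, 0 < C ∧ 0 < K ∧ ∀ n : ℕ, n0 ≤ n → ∀ x V : ℝ,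
  K * (n : ℝ) ^ (-(1 / 6) : ℝ) ≤ x → x ≤ (n : ℝ) ^ (-(21 / 200) : ℝ) → 0 ≤ V →
  V ≤ 64 * x ^ 3 → Pu n β x V ≤ P1 n β x + n / (2 * β) * V + C * (n * x ^ 5)

/-- **(C')**, small version, for the laws of two levels with the field on the first level
(`H310.CPs`). -/
def CPs (β : ℝ) : Prop := ∀ c' : ℝ, 0 < c' → ∃ ε K : ℝ, ∃ n0 : ℕ, 0 < ε ∧ 0 < K ∧
  ∀ n : ℕ, n0 ≤ n → ∀ x z T V : ℝ, K * (n : ℝ) ^ (-(1 / 6) : ℝ) ≤ x →
  x ≤ (n : ℝ) ^ (-(21 / 200) : ℝ) → x ≤ z → z ≤ 2 * x → 0 ≤ T → T ≤ x ^ 2 → 0 ≤ V →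
  V ≤ ε * x ^ 3 → ∀ m b w : ℕ → ℝ, Em 2 m → m 1 = x → m 2 = z →
  b 1 = β / √n * √(1 - T) → b 2 = β / √n * √T → w 1 ^ 2 = V → w 2 = 0 →
  (skS n 2 m b w).fe ≤ P2 n β x T z + n / (2 * β) * V + c' * (n * x ^ 5)

/-- **The increments of the pure laws** (`H310.Inc`). -/
def Inc (β : ℝ) : Prop := ∃ C : ℝ, ∃ n0 : ℕ, 0 < C ∧ ∀ n : ℕ, n0 ≤ n → ∀ x y : ℝ,
  (n : ℝ) ^ (-(1 / 6) : ℝ) ≤ x → x ≤ y → y ≤ (n : ℝ) ^ (-(1 / 10) : ℝ) →
  P1 n β y ≤ P1 n β x + C * (n * y ^ 5)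

/-- **START** (`H112.StP`). -/
def StP (β : ℝ) : Prop := ∀ q : ℝ, 0 < q → ∃ n0 : ℕ, ∀ n : ℕ, n0 ≤ n → ∀ x V : ℝ,
  (n : ℝ) ^ (-(1 / 9) : ℝ) ≤ x → x ≤ (n : ℝ) ^ (-(1 / 11) : ℝ) → 0 ≤ V → V ≤ x ^ 3 →
    P1 n β x + n / (2 * β) * V - (n : ℝ) ^ q * (n * x ^ 5) ≤ Pu n β x V

variable {n : ℕ} {β κ : ℝ}

lemma bx_of {b u : ℝ} (h : ∀ v V, u / 2 ≤ v → v ≤ 4 * u → 0 ≤ V → V ≤ 8 * u ^ 3 →
      |Pu n β v V - P1 n β v - n / (2 * β) * V| ≤ b * (n * u ^ 5)) : Bx n β b u := h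

/-- eventually `c n^p ≤ n^q` for `p < q` -/
lemma ev_le (c : ℝ) {p q : ℝ} (hpq : p < q) :
    ∀ᶠ n : ℕ in atTop, c * (n : ℝ) ^ p ≤ (n : ℝ) ^ q := by
  have h1 := ((tendsto_rpow_atTop (show 0 < q - p by linarith)).comp
    tendsto_natCast_atTop_atTop).eventually_ge_atTop c
  filter_upwards [h1, eventually_ge_atTop 1] with n hn hn1
  have hn0 : (0 : ℝ) < n := by exact_mod_cast hn1
  simp only [Function.comp] at hn
  have e : (n : ℝ) ^ q = (n : ℝ) ^ (q - p) * (n : ℝ) ^ p := by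
    rw [← Real.rpow_add hn0]
    congr 1
    ring
  rw [e]
  exact mul_le_mul_of_nonneg_right hn (Real.rpow_nonneg hn0.le _)

/-- eventually `c n^(-p) ≤ δ` -/
lemma ev_small (c : ℝ) {p δ : ℝ} (hp : 0 < p) (hδ : 0 < δ) :
    ∀ᶠ n : ℕ in atTop, c * (n : ℝ) ^ (-p) ≤ δ := by
  have h1 : Tendsto (fun n : ℕ => c * (n : ℝ) ^ (-p)) atTop (𝓝 (c * 0)) :=
    ((tendsto_rpow_neg_atTop hp).comp tendsto_natCast_atTop_atTop).const_mul c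
  rw [mul_zero] at h1
  exact h1.eventually_le_const hδ

/-- growth in the units of `psiU` -/
lemma grow_psi {a g ε S T1 x : ℝ} (hn : 0 < n) (hκ : 0 < κ) (hx : 0 < x) (ha : 0 ≤ a)
    (hg : g = a / 16)
    (hG : ∃ v, x / 2 ≤ v ∧ v ≤ x ∧ a ≤ QU n β κ v)
    (l1 : |psiU n β κ T1 x S 1 0 - pU n β x 1| ≤ ε)
    (l2 : |psiU n β κ T1 x S (1 + κ) 0 - pU n β x (1 + κ)| ≤ ε) (hε : 2 * ε ≤ g / 2 * κ) :
    psiU n β κ T1 x S 1 0 + g / 2 * κ ≤ psiU n β κ T1 x S (1 + κ) 0 := by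
  have hn' : (0 : ℝ) < n := Nat.cast_pos.2 hn
  have hN : 0 < (n : ℝ) * x ^ 5 := by positivity
  have h1 := growth (β := β) hn hκ ha hx hG
  have h2 : g * κ ≤ pU n β x (1 + κ) - pU n β x 1 := by
    have e : pU n β x (1 + κ) - pU n β x 1 =
        (P1 n β ((1 + κ) * x) - P1 n β x) / (n * x ^ 5) := by
      unfold pU
      rw [one_mul]
      ring
    rw [e, le_div_iff₀ hN, hg]
    linarith
  have h3 := abs_le.1 l1
  have h4 := abs_le.1 l2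
  linarith

end Vale.Agent.P146.H595
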