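import Vale.Agent.P146.H595.StarC

/-!
# P146, lower half: STAR in the SK letters (helper595), part D: the reset at one scale
-/

open MeasureTheory ProbabilityTheory Set Filter Topology

namespace Vale.Agent.P146.H595

open Vale.Agent.P157 Vale.Agent.P157.Lv Vale.Agent.P157.Lv.Sy
open Vale.Agent.P146.H425 Vale.Agent.P146.H325 Vale.Agent.P146.H93 Vale.Agent.P146.U
open Vale.Agent.P146.H332 Vale.Agent.P146.R1 Vale.Agent.P146.H479 Vale.Agent.P146.H560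
open Vale.Agent.P146.H758 Vale.Agent.P146.H865 Vale.Agent.P146.H645x

variable {n : ℕ} {β κ : ℝ}

/-- the numbers of the crude box -/
noncomputable def bb (C1 b : ℝ) : ℝ := 200000000 * (b + C1)

/-- admissibility of the crude constant -/
def OkB (n : ℕ) (γ C1 b u : ℝ) : Prop := (bb C1 b + 1) ^ 8 ≤ γ * (n * (u / 2) ^ 6)

/-- the upper bounds at one `n`, for the exponents in `[lo, hi]` -/
structure Ups (n : ℕ) (β C1 lo hi : ℝ) : Prop where
  hi1 : hi ≤ 1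
  up : ∀ x V : ℝ, lo ≤ x → x ≤ hi → 0 ≤ V → V ≤ 64 * x ^ 3 →
    Pu n β x V ≤ P1 n β x + n / (2 * β) * V + C1 * (n * x ^ 5)
  ic : ∀ x y : ℝ, lo ≤ x → x ≤ y → y ≤ hi → P1 n β y ≤ P1 n β x + C1 / 243 * (n * y ^ 5)

lemma Ups.inc {C1 lo hi x y : ℝ} (h : Ups n β C1 lo hi) (hC : 0 ≤ C1) (hlo : 0 < lo)
    (hx : lo ≤ x) (hxy : x ≤ y) (hy : y ≤ hi) : P1 n β y ≤ P1 n β x + C1 * (n * y ^ 5) := by
  have h1 := h.ic x y hx hxy hy
  have hy0 : 0 < y := by linarith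
  have h3 : 0 ≤ (n : ℝ) * y ^ 5 := by positivity
  have h4 : C1 / 243 * (n * y ^ 5) ≤ C1 * (n * y ^ 5) := mul_le_mul_of_nonneg_right (by linarith) h3
  linarith

/-- the box from the crude lower side at one scale -/
lemma box_one {C1 lo hi b x : ℝ} (hβ : 0 < β) (h : Ups n β C1 lo hi) (hC : 0 ≤ C1) (hb : 0 ≤ b)
    (hlo : 0 < lo) (hx : 2 * lo ≤ x) (hxi : 24 * x ≤ hi)
    (hLo : ∀ y V : ℝ, 2 * x ≤ y → y ≤ 16 * x → 0 ≤ V → V ≤ y ^ 3 →
      Star.Lo (Pu n β) n β y V b) :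
    ∀ v V, x / 2 ≤ v → v ≤ 4 * x → 0 ≤ V → V ≤ 8 * x ^ 3 →
      |Pu n β v V - P1 n β v - n / (2 * β) * V| ≤ bb C1 b * (n * x ^ 5) := by
  have hx0 : 0 < x := by linarith
  have hi1 := h.hi1
  refine box_Pu hβ hx0 (by linarith) hb hC ?_ ?_ ?_
  · intro y V h1 h2 h3 h4
    have h5 := hLo y V h1 h2 h3 h4
    unfold Star.Lo at h5
    rw [Pu_zero (by linarith) (by linarith)] at h5
    have e : (n : ℝ) * V / (2 * β) = n / (2 * β) * V := by ring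
    have e2 : b * n * y ^ 5 = b * (n * y ^ 5) := by ring
    rw [e, e2] at h5
    exact h5
  · intro y V h1 h2 h3 h4
    exact h.up y V (by linarith) (by linarith) h3 h4
  · intro y z h1 h2 h3
    exact h.inc hC hlo (by linarith) h2 (by linarith)

/-- the numbers `q`, `e` of the reset -/
structure Num (κ C g q e : ℝ) : Prop where
  κ0 : 0 < κ
  κ1 : κ ≤ 1 / 200
  C0 : 0 ≤ C
  g0 : 0 < g
  q_eq : q = g / 2 * κ
  e0 : 0 < e
  e1 : e ≤ 1 / 2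
  eC : C * e ≤ g / 16

lemma Num.q0 {κ C g q e : ℝ} (h : Num κ C g q e) : 0 < q := by
  rw [h.q_eq]
  exact mul_pos (by linarith [h.g0]) h.κ0

lemma Num.con {κ C g q e up : ℝ} (h : Num κ C g q e) (hup : up ≤ q / 4) :
    q / 4 + up + q / 16 + κ * (C * e * √e + q / 16) < g / 2 * κ := by
  have hq := h.q0
  have h1 : √e ≤ 1 := by
    rw [Real.sqrt_le_one]
    linarith [h.e1]
  have h2 : C * e * √e ≤ g / 16 := by
    have h3 : 0 ≤ C * e := mul_nonneg h.C0 h.e0.le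
    calc C * e * √e ≤ C * e * 1 := mul_le_mul_of_nonneg_left h1 h3
      _ = C * e := mul_one _
      _ ≤ g / 16 := h.eC
  have h4 : κ * (C * e * √e) ≤ κ * (g / 16) := mul_le_mul_of_nonneg_left h2 h.κ0.le
  have h5 : κ * (q / 16) ≤ 1 / 200 * (q / 16) := mul_le_mul_of_nonneg_right h.κ1 (by linarith)
  have h6 : κ * (g / 16) = q / 8 := by rw [h.q_eq]; ring
  rw [← h.q_eq, mul_add]
  linarith

/-- **The reset at one `n` and one scale `x`.** -/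
theorem res_one {C g q e C1 lo hi b τ S C2 x : ℝ} (hβ : 0 < β) (hn : 0 < n)
    (N : Num κ C g q e) (h : Ups n β C1 lo hi) (hC1 : 0 ≤ C1) (hlo : 0 < lo)
    (hx : 2 * lo ≤ x) (hxi : 24 * x ≤ hi) (hb : 0 ≤ b)
    (hLo : ∀ y V : ℝ, 2 * x ≤ y → y ≤ 16 * x → 0 ≤ V → V ≤ y ^ 3 →
      Star.Lo (Pu n β) n β y V b)
    (hτ : 0 < τ) (hτS : τ ≤ S) (hSx : S * x ^ 2 ≤ 1)
    (hC2 : C2 * τ ^ (1 / 600 : ℝ) ≤ q / 12)
    (hG : ∃ v, x / 2 ≤ v ∧ v ≤ x ∧ 16 * g ≤ QU n β κ v)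
    (l1 : |psiU n β κ τ x S 1 0 - pU n β x 1| ≤ q / 12)
    (l2 : |psiU n β κ τ x S (1 + κ) 0 - pU n β x (1 + κ)| ≤ q / 12)
    (hh : SS x ((1 + κ) * x) (√(1 - τ * x ^ 2)) (√(τ * x ^ 2)) (Fsk n β) ≤
      C2 * (n * x ^ 4 * (τ * x ^ 2 / x ^ 2) ^ (1 / 600 : ℝ)))
    (hcp : ∀ w ∈ Icc (0 : ℝ) e,
      (skS n 2 (m2 x ((1 + κ) * x)) (b2 n β (τ * x ^ 2)) (w2 (w * x ^ 3))).fe ≤
      P2 n β x (τ * x ^ 2) ((1 + κ) * x) + n / (2 * β) * (w * x ^ 3) + q / 12 * (n * x ^ 5))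
    (hI : Bx n β (bb C1 b) x →
        ∀ W : Set ℝ, W ⊆ Icc 0 1 → (∀ w ∈ W, -(2 + q) ≤ psiU n β κ τ x S (1 + κ) w) →
          ∀ w ∈ W, ∃ α K : ℝ,
            (∀ w' ∈ W, psiU n β κ τ x S (1 + κ) w' ≤
              psiU n β κ τ x S (1 + κ) w + α / (4 * β) * (w' - w) + q / 16) ∧
            psiU n β κ τ x S (1 + κ) w - K * κ - q / 16 ≤ psiU n β κ τ x S 1 w ∧
            K ≤ (1 + C * max α 0) * (max α 0) ^ 3 / 12 + C * w * max α 0 + C * w * √w + q / 16) :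
    ∀ V, 0 ≤ V → V ≤ e * x ^ 3 →
      P1 n β ((1 + κ) * x) + n / (2 * β) * V - (q / 4 + q / 12) * (n * x ^ 5) ≤
        Pu n β ((1 + κ) * x) V := by
  have hx0 : 0 < x := by linarith
  have hκ0 := N.κ0
  have hκ1 := N.κ1
  have hq0 := N.q0
  have hi1 := h.hi1
  have hn' : (0 : ℝ) < n := Nat.cast_pos.2 hn
  have hN : 0 < (n : ℝ) * x ^ 5 := by positivity
  have hκx : (1 + κ) * x ≤ 2 * x := mul_le_mul_of_nonneg_right (by linarith) hx0.le
  have hk1 : (1 + κ) * x ≤ 1 := by linarith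
  have hbox := box_one hβ h hC1 hb hlo hx hxi hLo
  have hB : Bx n β (bb C1 b) x := hbox
  have hI' := hI hB
  have hbb : 0 ≤ bb C1 b := by unfold bb; positivity
  -- upper bound of `psiU (1 + κ) 0`
  have e1 := abs_le.1 l1
  have e2 := abs_le.1 l2
  have hp : pU n β x (1 + κ) ≤ C1 := by
    have k1 := h.ic (51 / 100 * x) ((1 + κ) * x) (by linarith)
      (mul_le_mul_of_nonneg_right (by linarith) hx0.le) (by linarith)
    unfold pU
    rw [div_le_iff₀ hN]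
    have k4 : ((1 + κ) * x) ^ 5 ≤ (2 * x) ^ 5 := pow_le_pow_left₀ (by positivity) hκx 5
    have k5 : C1 / 243 * (n * ((1 + κ) * x) ^ 5) ≤ C1 * (n * x ^ 5) := by
      calc C1 / 243 * (n * ((1 + κ) * x) ^ 5) ≤ C1 / 243 * (n * (2 * x) ^ 5) := by gcongr
        _ = 32 / 243 * (C1 * (n * x ^ 5)) := by ring
        _ ≤ 1 * (C1 * (n * x ^ 5)) :=
            mul_le_mul_of_nonneg_right (by norm_num) (mul_nonneg hC1 hN.le)
        _ = _ := one_mul _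
    linarith
  have hp0 : 0 ≤ pU n β x (1 + κ) := by
    have := pU_mono (n := n) (β := β) hn hx0 (show (51 / 100 : ℝ) ∈ Ioi (0 : ℝ) by
      show (0 : ℝ) < 51 / 100; norm_num) (show (1 + κ : ℝ) ∈ Ioi (0 : ℝ) by
      show (0 : ℝ) < 1 + κ; linarith) (by linarith)
    rwa [pU_base] at this
  have hL0 : psiU n β κ τ x S (1 + κ) 0 ≤ C1 + q := by linarith
  -- `θ`
  obtain ⟨θ, hθ⟩ : ∃ θ, θ = q / 8 / (bb C1 b + (C1 + q)) := ⟨_, rfl⟩
  have hden : 0 < bb C1 b + (C1 + q) := by linarith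
  have hθ0 : 0 < θ := by rw [hθ]; positivity
  have hθb : θ * (bb C1 b + (C1 + q)) ≤ q / 8 := by
    rw [hθ, div_mul_cancel₀ _ hden.ne']
  have hgr := grow_psi (β := β) (a := 16 * g) (g := g) hn hκ0 hx0 (by linarith [N.g0]) (by ring) hG
    l1 l2 (by rw [← N.q_eq]; linarith)
  have hup : ∀ w ∈ Icc θ e, psiU n β κ τ x S 1 w ≤ psiU n β κ τ x S 1 0 + q / 4 := by
    intro w hw
    have k1 := psi_up (n := n) (β := β) (c' := q / 12) (ε := q / 12) hn hx0 hκ0.le hκ1 hk1 hτ hτS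
      hSx (hθ0.le.trans hw.1) hh (hcp w ⟨hθ0.le.trans hw.1, hw.2⟩) (by linarith)
    linarith
  refine reset_SK (b := bb C1 b) (L := C1 + q) (C := C) (d := q / 16) (e := e) (θ := θ)
    (s1 := q / 8) (sg := q / 4) (c := g / 2) (up := q / 4) (T1 := τ) hβ hn hx0 hκ0 hk1 hτ.le hτS hSx
    N.C0 N.e0 (by linarith [N.e1]) hθ0 (by linarith) hB hL0 hθb hgr hup ?_ (by linarith)
    (N.con le_rfl) (by linarith)
  intro w hw hwlo
  have hcc := psi_conc (T1 := τ) (s := S) (v := 1 + κ) hβ.le hn hx0 (by linarith) le_rfl hk1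
  have hlo1 := psi_lo (T1 := τ) (s := S) (v := 1 + κ) (w := 1) hβ.le hn hx0 (by linarith) le_rfl
    hk1 hτ.le hτS hSx hB ⟨by norm_num, le_rfl⟩
  have he1 := N.e1
  have h3 := Star.cc_lo hcc (B := bb C1 b + (C1 + q)) (by linarith) hθ0.le
    (by linarith [hw.1, hw.2])
  have hWm : w ∈ ({θ, w} : Set ℝ) := by simp
  have hWθ : θ ∈ ({θ, w} : Set ℝ) := by simp
  obtain ⟨α, K, k1, k2, k3⟩ := hI' {θ, w} (by
    intro z hz
    rcases hz with hz | hz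
    · rw [hz]; exact ⟨hθ0.le, by linarith [hw.1, hw.2]⟩
    · have : z = w := hz
      rw [this]; exact ⟨hθ0.le.trans hw.1, by linarith [hw.2]⟩) (by
    intro z hz
    rcases hz with hz | hz
    · rw [hz]; linarith
    · have : z = w := hz
      rw [this]; linarith) w hWm
  exact ⟨α, K, k1 θ hWθ, k2, k3⟩

end Vale.Agent.P146.H595
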