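import Vale.Agent.P146.H595.StarD

/-!
# P146, lower half: STAR in the SK letters (helper595), part E: STAR at one `n`
-/

open MeasureTheory ProbabilityTheory Set Filter Topology

namespace Vale.Agent.P146.H595

open Vale.Agent.P157 Vale.Agent.P157.Lv Vale.Agent.P157.Lv.Sy
open Vale.Agent.P146.H425 Vale.Agent.P146.H325 Vale.Agent.P146.H93 Vale.Agent.P146.U
open Vale.Agent.P146.H332 Vale.Agent.P146.R1 Vale.Agent.P146.H479 Vale.Agent.P146.H560
open Vale.Agent.P146.H758 Vale.Agent.P146.H865 Vale.Agent.P146.H645x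

variable {n : ℕ} {β κ : ℝ}

/-- the facts at one `n` used by the induction over the scales `x ∈ [u, top]` -/
structure Fct (n : ℕ) (β κ C g q e C1 γ τ S C2 u top : ℝ) : Prop where
  gr : ∀ x, u ≤ x → x ≤ top → ∃ v, x / 2 ≤ v ∧ v ≤ x ∧ 16 * g ≤ QU n β κ v
  l1 : ∀ x, u ≤ x → x ≤ top → |psiU n β κ τ x S 1 0 - pU n β x 1| ≤ q / 12
  l2 : ∀ x, u ≤ x → x ≤ top → |psiU n β κ τ x S (1 + κ) 0 - pU n β x (1 + κ)| ≤ q / 12
  hh : ∀ x, u ≤ x → x ≤ top →
    SS x ((1 + κ) * x) (√(1 - τ * x ^ 2)) (√(τ * x ^ 2)) (Fsk n β) ≤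
      C2 * (n * x ^ 4 * (τ * x ^ 2 / x ^ 2) ^ (1 / 600 : ℝ))
  cp : ∀ x, u ≤ x → x ≤ top → ∀ w ∈ Icc (0 : ℝ) e,
      (skS n 2 (m2 x ((1 + κ) * x)) (b2 n β (τ * x ^ 2)) (w2 (w * x ^ 3))).fe ≤
      P2 n β x (τ * x ^ 2) ((1 + κ) * x) + n / (2 * β) * (w * x ^ 3) + q / 12 * (n * x ^ 5)
  row : ∀ x B : ℝ, u ≤ x → x ≤ top → 0 ≤ B → (B + 1) ^ 8 ≤ γ * (n * x ^ 6) → Bx n β B x →
        ∀ W : Set ℝ, W ⊆ Icc 0 1 → (∀ w ∈ W, -(2 + q) ≤ psiU n β κ τ x S (1 + κ) w) →
          ∀ w ∈ W, ∃ α K : ℝ,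
            (∀ w' ∈ W, psiU n β κ τ x S (1 + κ) w' ≤
              psiU n β κ τ x S (1 + κ) w + α / (4 * β) * (w' - w) + q / 16) ∧
            psiU n β κ τ x S (1 + κ) w - K * κ - q / 16 ≤ psiU n β κ τ x S 1 w ∧
            K ≤ (1 + C * max α 0) * (max α 0) ^ 3 / 12 + C * w * max α 0 + C * w * √w + q / 16

/-- **STAR at one `n`.** -/
theorem star_n {C g q e C1 γ τ S C2 u X Bn B : ℝ} {k : ℕ} (hβ : 0 < β) (hn : 0 < n)
    (N : Num κ C g q e) (hC1 : 0 ≤ C1) (hγ : 0 ≤ γ) (hu : 0 < u) (huX : u ≤ X)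
    (h : Ups n β C1 (u / 2) (2 ^ (k + 13) * X)) (hk : 1 ≤ e / 2 * 8 ^ (k + 4))
    (hτ : 0 < τ) (hτS : τ ≤ S) (hSx : ∀ x, 0 < x → x ≤ 2 ^ (k + 8) * X → S * x ^ 2 ≤ 1)
    (hC2 : C2 * τ ^ (1 / 600 : ℝ) ≤ q / 12)
    (F : Fct n β κ C g q e C1 γ τ S C2 u (2 ^ (k + 8) * X))
    (hst : ∀ v V, X / 2 ≤ v → v ≤ 2 ^ (k + 12) * X → 0 ≤ V → V ≤ v ^ 3 →
      Star.Lo (Pu n β) n β v V Bn)
    (hOn : OkB n γ C1 Bn X) (hB : 128 ^ (k + 4) * (q + 6 * C1) ≤ B)
    (hOB : OkB n γ C1 B (16 * u)) : Bx n β (bb C1 B) u := by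
  have hX : 0 < X := by linarith
  have hq0 := N.q0
  have hi1 := h.hi1
  have hκ0 := N.κ0
  have hκ1 := N.κ1
  have hB0 : 0 ≤ B := le_trans (by positivity) hB
  have hp13 : (2 : ℝ) ^ (k + 13) * X = 32 * (2 ^ (k + 8) * X) := by ring
  have hp12 : (2 : ℝ) ^ (k + 12) * X = 16 * (2 ^ (k + 8) * X) := by ring
  have hp4 : (2 : ℝ) ^ (k + 4) * (16 * X) = 2 ^ (k + 8) * X := by ring
  have hp8 : (2 : ℝ) ^ (k + 8) * (16 * X) = 2 ^ (k + 12) * X := by ring
  obtain ⟨top, htop⟩ : ∃ top, top = 2 ^ (k + 8) * X := ⟨_, rfl⟩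
  rw [← htop] at hp13 hp12 hp4 hSx F
  have h16 : 16 * X ≤ top := by
    rw [htop]
    refine mul_le_mul_of_nonneg_right ?_ hX.le
    have : (2 : ℝ) ^ 4 ≤ 2 ^ (k + 8) := pow_le_pow_right₀ (by norm_num) (by omega)
    linarith
  rw [hp13] at h hi1
  -- monotonicity of `OkB` in the scale
  have okm : ∀ b x y : ℝ, 0 ≤ x → x ≤ y → OkB n γ C1 b x → OkB n γ C1 b y := by
    intro b x y hx hxy hb
    unfold OkB at hb ⊢
    refine hb.trans (mul_le_mul_of_nonneg_left (mul_le_mul_of_nonneg_left ?_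
      (Nat.cast_nonneg n)) hγ)
    exact pow_le_pow_left₀ (by positivity) (by linarith) 6
  have hLo := Star.star2 (P := Pu n β) (n := n) (β := β) (C := C1) (L := q) (B := B) (Bn := Bn)
    (R := 1) (e := e / 2) (x0 := 16 * X) (x1 := u) (k := k) (Ok := OkB n γ C1)
    (Nat.cast_nonneg n) hC1 zero_le_one hu hk
    (by
      rw [hp4]
      intro x w hx hx2 hw _
      exact Pu_cx hβ.le (by linarith) (by linarith) hw)
    (by
      rw [hp4]
      intro x w hx hx2 hw hwx
      have hx0 : 0 < x := by linarith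
      rw [Pu_zero (by linarith) (by linarith)]
      have h3 := h.up (3 * x) w (by linarith) (by linarith) hw (by
        have e1 : 64 * (3 * x) ^ 3 = 1728 * x ^ 3 := by ring
        have e2 : 0 < x ^ 3 := by positivity
        rw [e1]
        linarith)
      have e3 : (n : ℝ) / (2 * β) * w = n * w / (2 * β) := by ring
      have e4 : C1 * (n * (3 * x) ^ 5) = C1 * n * (3 * x) ^ 5 := by ring
      rw [e3, e4] at h3
      exact h3)
    (by
      rw [hp4]
      intro x hx hx2
      have hx0 : 0 < x := by linarith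
      rw [Pu_zero (by linarith) (by linarith), Pu_zero hx0 (by linarith)]
      have h3 := h.ic x (3 * x) (by linarith) (by linarith) (by linarith)
      have e4 : C1 / 243 * (n * (3 * x) ^ 5) = C1 * n * x ^ 5 := by ring
      rw [e4] at h3
      have h5 : W (3 * x) 1 (Fsk n β) 0 = P1 n β (3 * x) := rfl
      have h6 : W x 1 (Fsk n β) 0 = P1 n β x := rfl
      rw [h5, h6]
      linarith)
    (by
      rw [hp4]
      intro x hx hx2
      exact Pu_mono hβ.le (by linarith) (by linarith) (by linarith) le_rfl)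
    (by
      rw [hp8, hp12]
      intro v V h1 h2 h3 h4
      refine hst v V (by linarith) ?_ h3 (by linarith)
      rw [hp12]; exact h2)
    (by
      rw [hp4]
      intro y h1 h2
      exact okm Bn X y hX.le (by linarith) hOn)
    (by
      rw [hp4]
      intro y b h1 h2 h3 h4 w hw hwy
      -- the scale `x = y / (1 + κ)`
      have hy0 : 0 < y := by linarith
      obtain ⟨x, hx⟩ : ∃ x, x = y / (1 + κ) := ⟨_, rfl⟩
      have hκp : 0 < 1 + κ := by linarith
      have hxy : (1 + κ) * x = y := by rw [hx]; field_simp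
      have hx0 : 0 < x := by rw [hx]; positivity
      have hxy1 : x ≤ y := by nlinarith
      have hxy2 : y ≤ 201 / 200 * x := by
        rw [← hxy]
        exact mul_le_mul_of_nonneg_right (by linarith) hx0.le
      have hb0 : 0 ≤ b := by
        -- from the crude lower side at `w = 0`
        have h5 := h4 y 0 (by linarith) (by linarith) le_rfl (by positivity)
        unfold Star.Lo at h5
        have hny : 0 < (n : ℝ) * y ^ 5 := by
          have : (0 : ℝ) < n := Nat.cast_pos.2 hn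
          positivity
        have h6 : 0 ≤ b * (n * y ^ 5) := by
          have e1 : (n : ℝ) * 0 / (2 * β) = 0 := by ring
          have e2 : b * n * y ^ 5 = b * (n * y ^ 5) := by ring
          rw [e1, e2] at h5
          linarith
        exact nonneg_of_mul_nonneg_left h6 hny
      have hok : (bb C1 b + 1) ^ 8 ≤ γ * (n * x ^ 6) := by
        unfold OkB at h3
        refine h3.trans (mul_le_mul_of_nonneg_left (mul_le_mul_of_nonneg_left ?_
          (Nat.cast_nonneg n)) hγ)
        exact pow_le_pow_left₀ (by positivity) (by linarith) 6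
      have hux : u ≤ x := by linarith
      have hxt : x ≤ top := by linarith
      have hbb : 0 ≤ bb C1 b := by unfold bb; positivity
      have h7 := res_one hβ hn N h hC1 (by positivity) (by linarith) (by linarith) hb0
        (fun z V z1 z2 z3 z4 => h4 z V (by linarith) (by linarith) z3 (by linarith)) hτ hτS
        (hSx x hx0 hxt) hC2 (F.gr x hux hxt) (F.l1 x hux hxt) (F.l2 x hux hxt) (F.hh x hux hxt)
        (F.cp x hux hxt) (F.row x (bb C1 b) hux hxt hbb hok) w hw (by
          have e1 : y ^ 3 ≤ 2 * x ^ 3 := by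
            have := pow_le_pow_left₀ hy0.le hxy2 3
            refine this.trans ?_
            have e2 : (201 / 200 * x) ^ 3 = (201 / 200) ^ 3 * x ^ 3 := by ring
            rw [e2]
            exact mul_le_mul_of_nonneg_right (by norm_num) (by positivity)
          have e3 : e / 2 * y ^ 3 ≤ e / 2 * (2 * x ^ 3) :=
            mul_le_mul_of_nonneg_left e1 (by linarith [N.e0])
          linarith)
      rw [hxy] at h7
      unfold Star.Lo
      rw [Pu_zero hy0 (by linarith)]
      have e5 : (n : ℝ) / (2 * β) * w = n * w / (2 * β) := by ring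
      rw [e5] at h7
      refine le_trans ?_ h7
      have e6 : x ^ 5 ≤ y ^ 5 := pow_le_pow_left₀ hx0.le hxy1 5
      have e7 : (q / 4 + q / 12) * (n * x ^ 5) ≤ q * n * y ^ 5 := by
        calc (q / 4 + q / 12) * (n * x ^ 5) ≤ q * (n * y ^ 5) := by
              refine mul_le_mul (by linarith) (mul_le_mul_of_nonneg_left e6 (Nat.cast_nonneg n))
                (by positivity) hq0.le
          _ = q * n * y ^ 5 := by ring
      have h8 : W y 1 (Fsk n β) 0 = P1 n β y := rfl
      rw [h8]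
      linarith)
    hB
    (by
      rw [hp4]
      intro y h1 h2
      exact okm B (16 * u) y (by positivity) h1 hOB)
  -- the box
  refine box_one hβ h hC1 hB0 (by positivity) (by linarith) (by linarith) ?_
  intro y V h1 h2 h3 h4
  exact hLo y V (by linarith) (by linarith) h3 (by linarith)

end Vale.Agent.P146.H595
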