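import Vale.Agent.P146.H595.StarE
import Vale.Agent.P146.H444.Spec

/-!
# P146, lower half: STAR (helper595), part F: `star_out`

The a priori box at every scale `u` above which the flow variable is bounded below, from the upper
inner rows (`H444.InUBox`), the upper sides (`PuC`, `CPs`), the increments (`Inc`) and the start
(`StP`, `StartQ`).
-/

open MeasureTheory ProbabilityTheory Set Filter Topology

namespace Vale.Agent.P146.H595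

open Vale.Agent.P157 Vale.Agent.P157.Lv Vale.Agent.P157.Lv.Sy
open Vale.Agent.P146.H425 Vale.Agent.P146.H325 Vale.Agent.P146.H93 Vale.Agent.P146.U
open Vale.Agent.P146.H332 Vale.Agent.P146.R1 Vale.Agent.P146.H479 Vale.Agent.P146.H560
open Vale.Agent.P146.H758 Vale.Agent.P146.H865 Vale.Agent.P146.H645x

variable {n : ℕ} {β κ : ℝ}

/-- the eventual comparisons of powers of `n` -/
lemma ev_all (k : ℕ) (S : ℝ) {γ C1 δ : ℝ} (hγ : 0 < γ) (hC1 : 0 ≤ C1) (hδ : 0 < δ) :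
    ∃ n0 : ℕ, 0 < n0 ∧ ∀ n : ℕ, n0 ≤ n →
      2 ^ (k + 13) * (2 * (n : ℝ) ^ (-(1 / 9) : ℝ)) ≤ (n : ℝ) ^ (-(21 / 200) : ℝ) ∧
      2 ^ (k + 8) * (2 * (n : ℝ) ^ (-(1 / 9) : ℝ)) ≤ (n : ℝ) ^ (-(11 / 100) : ℝ) ∧
      (n : ℝ) ^ (-(11 / 100) : ℝ) ≤ δ ∧
      |S| * (n : ℝ) ^ (-(11 / 100) : ℝ) ≤ 1 / 2 ∧
      OkB n γ C1 ((n : ℝ) ^ (1 / 100 : ℝ)) (2 * (n : ℝ) ^ (-(1 / 9) : ℝ)) := by
  obtain ⟨M, hM⟩ : ∃ M : ℝ, M = 200000000 * (1 + C1) + 1 := ⟨_, rfl⟩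
  have hM0 : 0 < M := by rw [hM]; positivity
  have h1 := ev_le (2 ^ (k + 13) * 2) (p := -(1 / 9)) (q := -(21 / 200)) (by norm_num)
  have h2 := ev_le (2 ^ (k + 8) * 2) (p := -(1 / 9)) (q := -(11 / 100)) (by norm_num)
  have h3 := ev_small 1 (p := 11 / 100) (δ := δ) (by norm_num) hδ
  have h4 := ev_small |S| (p := 11 / 100) (δ := 1 / 2) (by norm_num) (by norm_num)
  have h5 := ev_le (M ^ 8 / γ) (p := 8 / 100) (q := 1 / 3) (by norm_num)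
  obtain ⟨n0, h⟩ := eventually_atTop.1 (h1.and (h2.and (h3.and (h4.and (h5.and
    (eventually_ge_atTop 1))))))
  refine ⟨max n0 1, by positivity, fun n hn => ?_⟩
  obtain ⟨h1, h2, h3, h4, h5, h6⟩ := h n ((le_max_left _ _).trans hn)
  have hn1 : (1 : ℝ) ≤ n := by exact_mod_cast h6
  have hn0 : (0 : ℝ) < n := by linarith
  refine ⟨by rw [← mul_assoc]; exact h1, by rw [← mul_assoc]; exact h2, by linarith, h4, ?_⟩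
  unfold OkB bb
  have e1 : 2 * (n : ℝ) ^ (-(1 / 9) : ℝ) / 2 = (n : ℝ) ^ (-(1 / 9) : ℝ) := by ring
  have e2 : (n : ℝ) * ((n : ℝ) ^ (-(1 / 9) : ℝ)) ^ 6 = (n : ℝ) ^ (1 / 3 : ℝ) := by
    rw [← Real.rpow_natCast, ← Real.rpow_mul hn0.le]
    nth_rewrite 1 [← Real.rpow_one (n : ℝ)]
    rw [← Real.rpow_add hn0]
    norm_num
  rw [e1, e2]
  have h7 : (1 : ℝ) ≤ (n : ℝ) ^ (1 / 100 : ℝ) := Real.one_le_rpow hn1 (by norm_num)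
  have h8 : 200000000 * ((n : ℝ) ^ (1 / 100 : ℝ) + C1) + 1 ≤ M * (n : ℝ) ^ (1 / 100 : ℝ) := by
    rw [hM]
    have h9 : 200000000 * C1 + 1 ≤ (200000000 * C1 + 1) * (n : ℝ) ^ (1 / 100 : ℝ) :=
      le_mul_of_one_le_right (by positivity) h7
    linarith
  have h9 : (200000000 * ((n : ℝ) ^ (1 / 100 : ℝ) + C1) + 1) ^ 8 ≤
      (M * (n : ℝ) ^ (1 / 100 : ℝ)) ^ 8 := pow_le_pow_left₀ (by positivity) h8 8
  have e3 : (M * (n : ℝ) ^ (1 / 100 : ℝ)) ^ 8 = M ^ 8 * (n : ℝ) ^ (8 / 100 : ℝ) := by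
    rw [mul_pow]
    congr 1
    rw [← Real.rpow_natCast, ← Real.rpow_mul hn0.le]
    norm_num
  rw [e3] at h9
  refine h9.trans ?_
  have h10 := mul_le_mul_of_nonneg_left h5 hγ.le
  have e4 : γ * (M ^ 8 / γ * (n : ℝ) ^ (8 / 100 : ℝ)) = M ^ 8 * (n : ℝ) ^ (8 / 100 : ℝ) := by
    field_simp
  rw [e4] at h10
  exact h10

/-- the numbers of the reset exist -/
lemma ex_num {C g : ℝ} (hκ : 0 < κ) (hκ1 : κ ≤ 1 / 200) (hC : 1 ≤ C) (hg : 0 < g) {ε : ℝ}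
    (hε : 0 < ε) : ∃ e : ℝ, e ≤ ε ∧ Num κ C g (g / 2 * κ) e := by
  have hC0 : 0 < C := by linarith
  refine ⟨min ε (min (1 / 2) (g / (16 * C))), min_le_left _ _, ⟨hκ, hκ1, hC0.le, hg, rfl,
    lt_min hε (lt_min (by norm_num) (by positivity)),
    (min_le_right _ _).trans (min_le_left _ _), ?_⟩⟩
  have h1 : min ε (min (1 / 2) (g / (16 * C))) ≤ g / (16 * C) :=
    (min_le_right _ _).trans (min_le_right _ _)
  calc C * min ε (min (1 / 2) (g / (16 * C))) ≤ C * (g / (16 * C)) :=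
        mul_le_mul_of_nonneg_left h1 hC0.le
    _ = g / 16 := by field_simp

/-- a small share -/
lemma ex_tau {C2 q τ0 : ℝ} (hC2 : 0 < C2) (hq : 0 < q) (hτ0 : 0 < τ0) :
    ∃ τ : ℝ, 0 < τ ∧ τ ≤ τ0 ∧ C2 * τ ^ (1 / 600 : ℝ) ≤ q / 12 := by
  obtain ⟨r, hr⟩ : ∃ r, r = q / 12 / C2 := ⟨_, rfl⟩
  have hr0 : 0 < r := by rw [hr]; positivity
  have hp : 0 < r ^ (600 : ℝ) := Real.rpow_pos_of_pos hr0 _
  refine ⟨min τ0 (r ^ (600 : ℝ)), lt_min hτ0 hp, min_le_left _ _, ?_⟩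
  have h1 : (min τ0 (r ^ (600 : ℝ))) ^ (1 / 600 : ℝ) ≤ (r ^ (600 : ℝ)) ^ (1 / 600 : ℝ) :=
    Real.rpow_le_rpow (lt_min hτ0 hp).le (min_le_right _ _) (by norm_num)
  rw [← Real.rpow_mul hr0.le] at h1
  norm_num at h1
  calc C2 * (min τ0 (r ^ (600 : ℝ))) ^ (1 / 600 : ℝ) ≤ C2 * r := by
        refine mul_le_mul_of_nonneg_left ?_ hC2.le
        norm_num
        exact h1
    _ = q / 12 := by rw [hr]; field_simp

/-- `Ups` from the inputs at one `n` -/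
lemma mk_ups {CP KP CI C1 s u hi : ℝ} (hCP : 0 < CP) (hCI : 0 < CI) (hC1 : C1 = CP + 243 * CI)
    (hu : 0 < u) (hs : s = (n : ℝ) ^ (-(1 / 6) : ℝ)) (hu2 : s ≤ u / 2) (huP : KP * s ≤ u / 2)
    (h1 : hi ≤ (n : ℝ) ^ (-(21 / 200) : ℝ)) (h2 : hi ≤ (n : ℝ) ^ (-(1 / 10) : ℝ)) (h3 : hi ≤ 1)
    (hPu : ∀ x V : ℝ,
      KP * (n : ℝ) ^ (-(1 / 6) : ℝ) ≤ x → x ≤ (n : ℝ) ^ (-(21 / 200) : ℝ) → 0 ≤ V →
      V ≤ 64 * x ^ 3 → Pu n β x V ≤ P1 n β x + n / (2 * β) * V + CP * (n * x ^ 5))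
    (hInc : ∀ x y : ℝ, (n : ℝ) ^ (-(1 / 6) : ℝ) ≤ x → x ≤ y → y ≤ (n : ℝ) ^ (-(1 / 10) : ℝ) →
      P1 n β y ≤ P1 n β x + CI * (n * y ^ 5)) : Ups n β C1 (u / 2) hi := by
  rw [← hs] at hPu hInc
  refine ⟨h3, ?_, ?_⟩
  · intro x V hx hx2 hV hV2
    have hx0 : 0 < x := by linarith
    have h4 := hPu x V (huP.trans hx) (hx2.trans h1) hV hV2
    have h5 : CP * (n * x ^ 5) ≤ C1 * (n * x ^ 5) :=
      mul_le_mul_of_nonneg_right (by rw [hC1]; linarith) (by positivity)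
    linarith
  · intro x y hx hxy hy
    have hy0 : 0 < y := by linarith
    have h4 := hInc x y (hu2.trans hx) hxy (hy.trans h2)
    have h5 : CI * (n * y ^ 5) ≤ C1 / 243 * (n * y ^ 5) :=
      mul_le_mul_of_nonneg_right (by rw [hC1]; linarith) (by positivity)
    linarith

/-- `τ x² ≤ x²`, `x ≤ (1 + κ) x ≤ 2 x` -/
lemma geo {x τ : ℝ} (hx : 0 < x) (hκ : 0 < κ) (hκ1 : κ ≤ 1 / 200) (hτ1 : τ ≤ 1) :
    τ * x ^ 2 ≤ x ^ 2 ∧ x ≤ (1 + κ) * x ∧ (1 + κ) * x ≤ 2 * x := by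
  have hx3 : 0 < x ^ 2 := by positivity
  have h1 : κ * x ≤ 1 / 200 * x := mul_le_mul_of_nonneg_right hκ1 hx.le
  have h2 : 0 ≤ κ * x := by positivity
  refine ⟨?_, by linarith, by linarith⟩
  calc τ * x ^ 2 ≤ 1 * x ^ 2 := mul_le_mul_of_nonneg_right hτ1 hx3.le
    _ = x ^ 2 := one_mul _

/-- `cp` from `CPs` at one `n` -/
lemma mk_cp {c' ε Kc x τ w e : ℝ} (hx0 : 0 < x) (hκ : 0 < κ) (hκ1 : κ ≤ 1 / 200) (hτ : 0 < τ)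
    (hτ1 : τ ≤ 1) (h2x : 2 * x ≤ 1) (hw : w ∈ Icc (0 : ℝ) e) (hee : e ≤ ε)
    (hcp : ∀ x z T V : ℝ, Kc * (n : ℝ) ^ (-(1 / 6) : ℝ) ≤ x →
      x ≤ (n : ℝ) ^ (-(21 / 200) : ℝ) → x ≤ z → z ≤ 2 * x → 0 ≤ T → T ≤ x ^ 2 → 0 ≤ V →
      V ≤ ε * x ^ 3 → ∀ m b w : ℕ → ℝ, Em 2 m → m 1 = x → m 2 = z →
      b 1 = β / √n * √(1 - T) → b 2 = β / √n * √T → w 1 ^ 2 = V → w 2 = 0 →
      (skS n 2 m b w).fe ≤ P2 n β x T z + n / (2 * β) * V + c' * (n * x ^ 5))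
    (h1 : Kc * (n : ℝ) ^ (-(1 / 6) : ℝ) ≤ x) (h2 : x ≤ (n : ℝ) ^ (-(21 / 200) : ℝ)) :
    (skS n 2 (m2 x ((1 + κ) * x)) (b2 n β (τ * x ^ 2)) (w2 (w * x ^ 3))).fe ≤
      P2 n β x (τ * x ^ 2) ((1 + κ) * x) + n / (2 * β) * (w * x ^ 3) + c' * (n * x ^ 5) := by
  have hx3 : 0 < x ^ 2 := by positivity
  have hx4 : 0 < x ^ 3 := by positivity
  obtain ⟨g1, g2, g3⟩ := geo (τ := τ) hx0 hκ hκ1 hτ1
  have hw0 : 0 ≤ w * x ^ 3 := mul_nonneg hw.1 hx4.le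
  have hT0 : 0 ≤ τ * x ^ 2 := by positivity
  have hwe : w * x ^ 3 ≤ ε * x ^ 3 := mul_le_mul_of_nonneg_right (hw.2.trans hee) hx4.le
  have hem := em_m2 hx0 g2 (g3.trans h2x)
  have hsq : w2 (w * x ^ 3) 1 ^ 2 = w * x ^ 3 := Real.sq_sqrt hw0
  exact hcp x ((1 + κ) * x) (τ * x ^ 2) (w * x ^ 3) h1 h2 g2 g3 hT0 g1 hw0 hwe
    (m2 x ((1 + κ) * x)) (b2 n β (τ * x ^ 2)) (w2 (w * x ^ 3)) hem rfl rfl rfl rfl hsq rfl

/-- `Fct` from the inputs at one `n` -/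
lemma mk_fct {C g q e C1 γ τ S C2 u top a cS δ ε Kc S1 T1 s : ℝ}
    (hκ : 0 < κ) (hκ1 : κ ≤ 1 / 200) (hu0 : 0 < u) (hτ : 0 < τ) (hτ1 : τ ≤ 1) (hee : e ≤ ε)
    (hga : 16 * g ≤ a) (hgc : 16 * g ≤ cS) (hs0 : 0 < s)
    (hs : s = (n : ℝ) ^ (-(1 / 6) : ℝ)) (hu2 : 2 * s ≤ u) (huc : Kc * s ≤ u)
    (E2 : top ≤ (n : ℝ) ^ (-(11 / 100) : ℝ)) (E21 : top ≤ (n : ℝ) ^ (-(21 / 200) : ℝ))
    (E22 : top ≤ (n : ℝ) ^ (-(1 / 10) : ℝ)) (E3 : top ≤ δ) (h2t : 2 * top ≤ 1)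
    (hSx : ∀ x : ℝ, 0 < x → x ≤ top → S * x ^ 2 ≤ 1 / 2)
    (hτT : τ ≤ T1) (hSS1 : S1 ≤ S)
    (hgr : ∀ y ∈ Icc u (H444.X0 n), ∃ v ∈ Icc (y / 2) y, a ≤ QU n β κ v)
    (hQ : ∀ x : ℝ, (n : ℝ) ^ (-(23 / 200) : ℝ) ≤ x → x ≤ δ → cS ≤ QU n β κ x)
    (hlk : ∀ κ T1' u S : ℝ,
      0 ≤ κ → κ ≤ 1 / 200 → 2 * (n : ℝ) ^ (-(1 / 6) : ℝ) ≤ u → u ≤ (n : ℝ) ^ (-(1 / 10) : ℝ) →
      0 < T1' → T1' ≤ T1 → S1 ≤ S → S * u ^ 2 ≤ 1 / 2 →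
      |psiU n β κ T1' u S 1 0 - pU n β u 1| ≤ q / 12 ∧
      |psiU n β κ T1' u S (1 + κ) 0 - pU n β u (1 + κ)| ≤ q / 12 ∧
      pU n β u (51 / 100) - q / 12 ≤ psiU n β κ T1' u T1' (1 + κ) 0)
    (hhd : ∀ x b T : ℝ, (n : ℝ) ^ (-(1 / 6) : ℝ) ≤ x → x ≤ (n : ℝ) ^ (-(1 / 10) : ℝ) →
      x ≤ b → b ≤ 2 * x → 0 < T → T ≤ x ^ 2 →
      SS x b (√(1 - T)) (√T) (Fsk n β) ≤ C2 * (n * x ^ 4 * (T / x ^ 2) ^ (1 / 600 : ℝ)))
    (hcp : ∀ x z T V : ℝ, Kc * (n : ℝ) ^ (-(1 / 6) : ℝ) ≤ x →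
      x ≤ (n : ℝ) ^ (-(21 / 200) : ℝ) → x ≤ z → z ≤ 2 * x → 0 ≤ T → T ≤ x ^ 2 → 0 ≤ V →
      V ≤ ε * x ^ 3 → ∀ m b w : ℕ → ℝ, Em 2 m → m 1 = x → m 2 = z →
      b 1 = β / √n * √(1 - T) → b 2 = β / √n * √T → w 1 ^ 2 = V → w 2 = 0 →
      (skS n 2 m b w).fe ≤ P2 n β x T z + n / (2 * β) * V + q / 12 * (n * x ^ 5))
    (hI : ∀ u B : ℝ, 0 < u →
        u ≤ (n : ℝ) ^ (-(11 / 100) : ℝ) → 0 ≤ B → (B + 1) ^ 8 ≤ γ * (n * u ^ 6) →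
        H444.Bx n β B u →
        ∀ W : Set ℝ, W ⊆ Icc 0 1 → (∀ w ∈ W, -(2 + q) ≤ psiU n β κ τ u S (1 + κ) w) →
          H444.InUW β C (C * (B + 1)) κ S (q / 16) (psiU n β κ τ u) W) :
    Fct n β κ C g q e C1 γ τ S C2 u top where
  gr := fun x hx hx2 => by
    rcases le_total x (H444.X0 n) with h | h
    · obtain ⟨v, hv, hv1⟩ := hgr x ⟨hx, h⟩
      exact ⟨v, hv.1, hv.2, hga.trans hv1⟩
    · exact ⟨x, by linarith, le_rfl, hgc.trans (hQ x h (hx2.trans E3))⟩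
  l1 := fun x hx hx2 => by
    have hx0 : 0 < x := hu0.trans_le hx
    exact (hlk κ τ x S hκ.le hκ1 (by rw [← hs]; exact hu2.trans hx) (hx2.trans E22) hτ hτT hSS1
      (hSx x hx0 hx2)).1
  l2 := fun x hx hx2 => by
    have hx0 : 0 < x := hu0.trans_le hx
    exact (hlk κ τ x S hκ.le hκ1 (by rw [← hs]; exact hu2.trans hx) (hx2.trans E22) hτ hτT hSS1
      (hSx x hx0 hx2)).2.1
  hh := fun x hx hx2 => by
    have hx0 : 0 < x := hu0.trans_le hx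
    obtain ⟨g1, g2, g3⟩ := geo (τ := τ) hx0 hκ hκ1 hτ1
    exact hhd x ((1 + κ) * x) (τ * x ^ 2) (by rw [← hs]; linarith) (hx2.trans E22)
      g2 g3 (by positivity) g1
  cp := fun x hx hx2 w hw => by
    have hx0 : 0 < x := hu0.trans_le hx
    exact mk_cp hx0 hκ hκ1 hτ hτ1 (by linarith) hw hee hcp (by rw [← hs]; exact huc.trans hx)
      (hx2.trans E21)
  row := fun x b hx hx2 hb hb8 hbx W hW hWl w hw => by
    have hx0 : 0 < x := hu0.trans_le hx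
    obtain ⟨α, K', -, h3, h4, h5⟩ := hI x b hx0 (hx2.trans E2) hb hb8 hbx W hW hWl w hw
    exact ⟨α, K', h3, h4, h5⟩

/-- the start in the letters of `Star` -/
lemma mk_st {X top : ℝ} (hX0 : 0 < X) (hX : X = 2 * (n : ℝ) ^ (-(1 / 9) : ℝ))
    (h1 : top ≤ (n : ℝ) ^ (-(1 / 11) : ℝ)) (h2 : top ≤ 1)
    (hst : ∀ x V : ℝ,
      (n : ℝ) ^ (-(1 / 9) : ℝ) ≤ x → x ≤ (n : ℝ) ^ (-(1 / 11) : ℝ) → 0 ≤ V → V ≤ x ^ 3 →
        P1 n β x + n / (2 * β) * V - (n : ℝ) ^ (1 / 100 : ℝ) * (n * x ^ 5) ≤ Pu n β x V) :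
    ∀ v V, X / 2 ≤ v → v ≤ top → 0 ≤ V → V ≤ v ^ 3 →
      Star.Lo (Pu n β) n β v V ((n : ℝ) ^ (1 / 100 : ℝ)) := by
  intro v V hv hv2 hV hV2
  have hv0 : 0 < v := by linarith
  have h3 := hst v V (by
    have e1 : X / 2 = (n : ℝ) ^ (-(1 / 9) : ℝ) := by rw [hX]; ring
    rw [← e1]; exact hv) (hv2.trans h1) hV hV2
  unfold Star.Lo
  rw [Pu_zero hv0 (hv2.trans h2)]
  have e2 : (n : ℝ) / (2 * β) * V = n * V / (2 * β) := by ring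
  rw [e2] at h3
  have h4 : W v 1 (Fsk n β) 0 = P1 n β v := rfl
  rw [h4]
  have e3 : (n : ℝ) ^ (1 / 100 : ℝ) * n * v ^ 5 = (n : ℝ) ^ (1 / 100 : ℝ) * (n * v ^ 5) := by ring
  rw [e3]
  exact h3

/-- admissibility of the final constant -/
lemma mk_ob {C1 B γ M K s u : ℝ} (hγ : 0 < γ) (hM : M = (bb C1 B + 1) ^ 8 / γ)
    (hs0 : 0 < s) (hs6 : (n : ℝ) * s ^ 6 = 1) (hK1 : 1 ≤ K) (hKM : M ≤ K)
    (hu : K * s ≤ u) : OkB n γ C1 B (16 * u) := by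
  unfold OkB
  have hKs : 0 ≤ K * s := by positivity
  have h1 : K * s ≤ 16 * u / 2 := by linarith
  have h3 : (K * s) ^ 6 ≤ (16 * u / 2) ^ 6 := pow_le_pow_left₀ hKs h1 6
  have h4 : (n : ℝ) * (K * s) ^ 6 ≤ n * (16 * u / 2) ^ 6 :=
    mul_le_mul_of_nonneg_left h3 (Nat.cast_nonneg n)
  have h5 : (n : ℝ) * (K * s) ^ 6 = K ^ 6 := by
    calc (n : ℝ) * (K * s) ^ 6 = K ^ 6 * (n * s ^ 6) := by ring
      _ = K ^ 6 := by rw [hs6, mul_one]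
  have h6 : K ≤ K ^ 6 := le_self_pow₀ hK1 (by norm_num)
  have h7 : M ≤ n * (16 * u / 2) ^ 6 := by linarith
  have h8 := mul_le_mul_of_nonneg_left h7 hγ.le
  have h9 : γ * M = (bb C1 B + 1) ^ 8 := by rw [hM]; field_simp
  linarith

/-- comparison of the powers of `n` -/
lemma pow_cmp (hn : (1 : ℝ) ≤ n) :
    (n : ℝ) ^ (-(21 / 200) : ℝ) ≤ (n : ℝ) ^ (-(1 / 10) : ℝ) ∧
    (n : ℝ) ^ (-(1 / 10) : ℝ) ≤ (n : ℝ) ^ (-(1 / 11) : ℝ) ∧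
    (n : ℝ) ^ (-(1 / 11) : ℝ) ≤ 1 ∧
    (n : ℝ) ^ (-(11 / 100) : ℝ) ≤ (n : ℝ) ^ (-(21 / 200) : ℝ) ∧
    (n : ℝ) ^ (-(23 / 200) : ℝ) ≤ (n : ℝ) ^ (-(1 / 9) : ℝ) ∧
    (n : ℝ) * ((n : ℝ) ^ (-(1 / 6) : ℝ)) ^ 6 = 1 := by
  have hn0 : (0 : ℝ) < n := by linarith
  refine ⟨Real.rpow_le_rpow_of_exponent_le hn (by norm_num),
    Real.rpow_le_rpow_of_exponent_le hn (by norm_num),
    Real.rpow_le_one_of_one_le_of_nonpos hn (by norm_num),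
    Real.rpow_le_rpow_of_exponent_le hn (by norm_num),
    Real.rpow_le_rpow_of_exponent_le hn (by norm_num), ?_⟩
  rw [← Real.rpow_natCast, ← Real.rpow_mul hn0.le]
  nth_rewrite 1 [← Real.rpow_one (n : ℝ)]
  rw [← Real.rpow_add hn0]
  norm_num

/-- `S x² ≤ 1 / 2` below the top -/
lemma mk_S {S top : ℝ} (hS : 1 ≤ S) (h1 : top ≤ (n : ℝ) ^ (-(11 / 100) : ℝ)) (h2 : top ≤ 1)
    (h3 : |S| * (n : ℝ) ^ (-(11 / 100) : ℝ) ≤ 1 / 2) :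
    ∀ x : ℝ, 0 < x → x ≤ top → S * x ^ 2 ≤ 1 / 2 := by
  intro x hx hx2
  have h4 : x ^ 2 ≤ x := by
    rw [pow_two]
    exact mul_le_of_le_one_left hx.le (hx2.trans h2)
  have h5 : S * x ^ 2 ≤ S * x := mul_le_mul_of_nonneg_left h4 (by linarith)
  have h6 : S * x ≤ S * (n : ℝ) ^ (-(11 / 100) : ℝ) :=
    mul_le_mul_of_nonneg_left (hx2.trans h1) (by linarith)
  rw [abs_of_nonneg (by linarith : (0 : ℝ) ≤ S)] at h3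
  linarith

/-- the number of octaves -/
lemma ex_k {e : ℝ} (he : 0 < e) : ∃ k : ℕ, 1 ≤ e / 2 * 8 ^ (k + 4) := by
  obtain ⟨k, hk⟩ := pow_unbounded_of_one_lt (2 / e) (by norm_num : (1 : ℝ) < 8)
  refine ⟨k, ?_⟩
  have h1 : (8 : ℝ) ^ k ≤ 8 ^ (k + 4) := pow_le_pow_right₀ (by norm_num) (by omega)
  have h3 : e / 2 * (2 / e) ≤ e / 2 * 8 ^ (k + 4) :=
    mul_le_mul_of_nonneg_left (hk.le.trans h1) (by positivity)
  have h4 : e / 2 * (2 / e) = 1 := by field_simp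
  linarith

/-- **STAR.** -/
theorem star_out (hβ : 0 < β) (h2 : Ex2Strong β) (h2' : Ex2Out β) (hL : LStar β)
    (hQ : StartQ β) (hI : H444.InUBox β) (hPu : PuC β) (hCP : CPs β) (hInc : Inc β)
    (hSt : StP β) : H444.StarOut β := by
  intro κ a hκ hκ1 ha
  obtain ⟨cS, hcS, hQ⟩ := hQ
  obtain ⟨δ, hδ, hQ⟩ := hQ κ hκ hκ1
  obtain ⟨a1, ha1⟩ : ∃ a1 : ℝ, a1 = min a cS := ⟨_, rfl⟩
  have ha10 : 0 < a1 := by rw [ha1]; exact lt_min ha hcS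
  have ha1a : a1 ≤ a := by rw [ha1]; exact min_le_left _ _
  have ha1c : a1 ≤ cS := by rw [ha1]; exact min_le_right _ _
  obtain ⟨g, hg⟩ : ∃ g : ℝ, g = a1 / 16 := ⟨_, rfl⟩
  have hg0 : 0 < g := by rw [hg]; positivity
  have hg16 : 16 * g = a1 := by rw [hg]; ring
  obtain ⟨C, hC, hI⟩ := hI
  obtain ⟨S0, hI⟩ := hI κ hκ hκ1
  obtain ⟨q, hq⟩ : ∃ q : ℝ, q = g / 2 * κ := ⟨_, rfl⟩
  have hq0 : 0 < q := by rw [hq]; positivity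
  obtain ⟨εc, Kc, nc, hεc, hKc, hcp⟩ := hCP (q / 12) (by positivity)
  obtain ⟨S1, T1, n1, hS1, hT1, hT11, hlk⟩ := link_eps hβ.le h2 h2' hL (ε := q / 12)
    (by positivity)
  obtain ⟨C2, n2, hC2, hhd⟩ := H240.head h2
  obtain ⟨S, hS⟩ : ∃ S : ℝ, S = max S0 S1 := ⟨_, rfl⟩
  have hSS0 : S0 ≤ S := by rw [hS]; exact le_max_left _ _
  have hSS1 : S1 ≤ S := by rw [hS]; exact le_max_right _ _
  have hS1' : 1 ≤ S := hS1.trans hSS1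
  obtain ⟨τ0, hτ0, hI⟩ := hI S hSS0
  obtain ⟨τ, hτ, hτ1, hτC⟩ := ex_tau (τ0 := min τ0 T1) hC2 hq0 (lt_min hτ0 hT1)
  have hττ : τ ≤ τ0 := hτ1.trans (min_le_left _ _)
  have hτT : τ ≤ T1 := hτ1.trans (min_le_right _ _)
  have hτ11 : τ ≤ 1 := hτT.trans hT11
  have hτS : τ ≤ S := hτ11.trans hS1'
  obtain ⟨γ, hγ, nI, hI⟩ := hI τ hτ hττ (2 + q) (q / 16) (by positivity) (by positivity)
  obtain ⟨CP, KP, nP, hCP0, hKP, hPu⟩ := hPu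
  obtain ⟨CI, nC, hCI, hInc⟩ := hInc
  obtain ⟨C1, hC1⟩ : ∃ C1 : ℝ, C1 = CP + 243 * CI := ⟨_, rfl⟩
  have hC10 : 0 < C1 := by rw [hC1]; positivity
  obtain ⟨e, hee, N⟩ := ex_num (C := C) hκ hκ1 hC hg0 hεc
  rw [← hq] at N
  obtain ⟨k, hk⟩ := ex_k N.e0
  obtain ⟨B, hB⟩ : ∃ B : ℝ, B = 128 ^ (k + 4) * (q + 6 * C1) := ⟨_, rfl⟩
  have hB0 : 0 < B := by rw [hB]; positivity
  obtain ⟨M, hM⟩ : ∃ M : ℝ, M = (bb C1 B + 1) ^ 8 / γ := ⟨_, rfl⟩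
  have hbb : 0 < bb C1 B := by unfold bb; positivity
  have hM0 : 0 < M := by rw [hM]; positivity
  obtain ⟨n3, hn3, hev⟩ := ev_all k S hγ hC10.le (lt_min hδ (show (0 : ℝ) < 1 / 2 by norm_num))
  obtain ⟨n4, hst⟩ := hSt (1 / 100) (by norm_num)
  obtain ⟨n5, hQ⟩ := eventually_atTop.1 hQ
  refine ⟨bb C1 B, 2 + 2 * KP + Kc + M, max (max (max nc n1) (max n2 nI)) (max (max nP nC)
    (max n3 (max n4 n5))), hbb, ?_⟩
  intro n hn u hu huX hgr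
  have hnr : max n3 (max n4 n5) ≤ n := (le_max_right _ _).trans ((le_max_right _ _).trans hn)
  have hn3' : n3 ≤ n := (le_max_left _ _).trans hnr
  have hn0 : 0 < n := hn3.trans_le hn3'
  have hnR1 : (1 : ℝ) ≤ n := by exact_mod_cast hn0
  obtain ⟨E1, E2, E3, E4, E5⟩ := hev n hn3'
  obtain ⟨X, hX⟩ : ∃ X : ℝ, X = 2 * (n : ℝ) ^ (-(1 / 9) : ℝ) := ⟨_, rfl⟩
  rw [← hX] at E1 E2 E5
  have hX0 : 0 < X := by rw [hX]; positivity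
  obtain ⟨p1, p2, p3, p4, p5, p6⟩ := pow_cmp hnR1
  have hs0 : 0 < (n : ℝ) ^ (-(1 / 6) : ℝ) := Real.rpow_pos_of_pos (by linarith) _
  have huX' : u ≤ X := by
    have h1 : u ≤ (n : ℝ) ^ (-(23 / 200) : ℝ) := huX
    rw [hX]; linarith
  have hp12 : (2 : ℝ) ^ (k + 12) * X ≤ 2 ^ (k + 13) * X :=
    mul_le_mul_of_nonneg_right (pow_le_pow_right₀ (by norm_num) (by omega)) hX0.le
  have hE3 := E3.trans (min_le_left _ _)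
  have hE3' := E3.trans (min_le_right _ _)
  have hKPs : 0 ≤ KP * (n : ℝ) ^ (-(1 / 6) : ℝ) := by positivity
  have hKcs : 0 ≤ Kc * (n : ℝ) ^ (-(1 / 6) : ℝ) := by positivity
  have hMs : 0 ≤ M * (n : ℝ) ^ (-(1 / 6) : ℝ) := by positivity
  have hu2 : 2 * (n : ℝ) ^ (-(1 / 6) : ℝ) ≤ u := by linarith
  have huP : KP * (n : ℝ) ^ (-(1 / 6) : ℝ) ≤ u / 2 := by linarith
  have huc : Kc * (n : ℝ) ^ (-(1 / 6) : ℝ) ≤ u := by linarith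
  have hu0 : 0 < u := by linarith
  have hSx := mk_S hS1' E2 (by linarith) E4
  have hU := mk_ups (hi := 2 ^ (k + 13) * X) hCP0 hCI hC1 hu0 rfl (by linarith) huP E1
    (E1.trans p1) (by linarith)
    (hPu n ((le_max_left _ _).trans ((le_max_left _ _).trans ((le_max_right _ _).trans hn))))
    (hInc n ((le_max_right _ _).trans ((le_max_left _ _).trans ((le_max_right _ _).trans hn))))
  have hF := mk_fct (C1 := C1) (top := 2 ^ (k + 8) * X) (g := g) hκ hκ1 hu0 hτ hτ11 hee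
    (by linarith) (by linarith) hs0 rfl hu2 huc E2 (E2.trans p4) (E2.trans (p4.trans p1))
    (E2.trans hE3) (by linarith) hSx hτT hSS1 hgr
    (hQ n ((le_max_right _ _).trans ((le_max_right _ _).trans hnr)))
    (hlk n ((le_max_right _ _).trans ((le_max_left _ _).trans ((le_max_left _ _).trans hn))))
    (hhd n ((le_max_left _ _).trans ((le_max_right _ _).trans ((le_max_left _ _).trans hn))))
    (hcp n ((le_max_left _ _).trans ((le_max_left _ _).trans ((le_max_left _ _).trans hn))))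
    (hI n ((le_max_right _ _).trans ((le_max_right _ _).trans ((le_max_left _ _).trans hn))))
  have hSt' := mk_st (top := 2 ^ (k + 12) * X) hX0 hX (by linarith) (by linarith)
    (hst n ((le_max_left _ _).trans ((le_max_right _ _).trans hnr)))
  have hOB := mk_ob (K := 2 + 2 * KP + Kc + M) hγ hM hs0 p6 (by linarith) (by linarith) hu
  exact star_n hβ hn0 N hC10.le hγ.le hu0 huX' hU hk hτ hτS
    (fun x hx hx2 => (hSx x hx hx2).trans (by norm_num)) hτC hF hSt' E5 hB.ge hOB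

end Vale.Agent.P146.H595
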